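import Vale.Agent.P255.Riem.Defs
import Vale.Agent.P255.Profile.Defs

/-!
# P255: what is needed of the manifold and the metric of the example

Three parametrisations, each a local homeomorphism on an open subset of `ℝ³`:
* `eC` on the cylinder `{-3 < r < 4}`, coordinates `(r,v,u)`, periods `(0,1,0)` and `(0,0,1)`;
* `eL` on (flat torus of side `lamL` minus the closed disc of radius `rhoL`) × circle;
* `eR` the same with `lamR`, `rhoR`, the circle having length `fibR`.
`eC` with `r < -1` is glued to `eL`, with `3 < r` to `eR`, by polar coordinates.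
-/

open scoped Manifold ContDiff
open Set Bundle

namespace Vale.Agent.P255

/-- radius of the left disc -/
noncomputable def rhoL : ℝ := wL (-1) / (2 * Real.pi)
/-- side of the left torus -/
noncomputable def lamL : ℝ := 4 * (rhoL + 2)
/-- radius of the right disc -/
noncomputable def rhoR : ℝ := wR 3 / (2 * Real.pi)
/-- side of the right torus -/
noncomputable def lamR : ℝ := 4 * (rhoR + 2)

/-- the domain of the cylinder parametrisation -/
def domC : Set E3 := {y | y 0 ∈ Ioo (-3 : ℝ) 4}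
/-- a flat plane minus the closed discs around a square lattice, times a line -/
def domCore (lam rho : ℝ) : Set E3 :=
  {y | ∀ i j : ℤ, rho ^ 2 < (y 0 - lam * i) ^ 2 + (y 1 - lam * j) ^ 2}
/-- the domain of the left core parametrisation -/
noncomputable def domL : Set E3 := domCore lamL rhoL
/-- the domain of the right core parametrisation -/
noncomputable def domR : Set E3 := domCore lamR rhoR

/-- the bilinear form with a given matrix -/
noncomputable def formOf (A : Fin 3 → Fin 3 → ℝ) : Form 3 :=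
  ∑ i : Fin 3, ∑ j : Fin 3,
    A i j • (EuclideanSpace.proj (𝕜 := ℝ) i).smulRight (EuclideanSpace.proj (𝕜 := ℝ) j)

/-- a point of `ℝ³` -/
noncomputable def vec (a b c : ℝ) : E3 := WithLp.toLp 2 ![a, b, c]

/-- metric matrix on the cylinder at the radius `r` -/
noncomputable def gCm (r : ℝ) : Fin 3 → Fin 3 → ℝ :=
  ![![1, 0, 0], ![0, qG r / qD r, -(qM r) / qD r], ![0, -(qM r) / qD r, qA r / qD r]]
/-- the metric on the cylinder -/
noncomputable def gC (y : E3) : Form 3 := formOf (gCm (y 0))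
/-- the metric on the left core -/
noncomputable def gL (_ : E3) : Form 3 := formOf ![![1, 0, 0], ![0, 1, 0], ![0, 0, 1]]
/-- the metric on the right core -/
noncomputable def gR (_ : E3) : Form 3 :=
  formOf ![![1, 0, 0], ![0, 1, 0], ![0, 0, fibR ^ 2]]

/-- transition from the cylinder to the left core (for `r ≤ -1/2`) -/
noncomputable def toL (y : E3) : E3 :=
  vec (wL (y 0) / (2 * Real.pi) * Real.cos (2 * Real.pi * (y 1 - y 2)))
    (wL (y 0) / (2 * Real.pi) * Real.sin (2 * Real.pi * (y 1 - y 2))) (y 2)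
/-- transition from the cylinder to the right core (for `2 ≤ r`) -/
noncomputable def toR (y : E3) : E3 :=
  vec (wR (y 0) / (2 * Real.pi) * Real.cos (2 * Real.pi * y 2))
    (wR (y 0) / (2 * Real.pi) * Real.sin (2 * Real.pi * y 2)) (y 1)

/-- periods of the cylinder -/
noncomputable def perC (i j : ℤ) : E3 := vec 0 i j
/-- periods of the cores -/
noncomputable def perCore (lam : ℝ) (i j k : ℤ) : E3 := vec (lam * i) (lam * j) k

/-- the example: manifold, metric, parametrisations -/
structure ModelSpec where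
  M : Type
  [top : TopologicalSpace M]
  [charts : ChartedSpace E3 M]
  [mfld : IsManifold (𝓡 3) ∞ M]
  [t2 : T2Space M]
  [cpt : CompactSpace M]
  [conn : ConnectedSpace M]
  g : Metric 3 M
  eC : E3 → M
  eL : E3 → M
  eR : E3 → M
  rad : M → ℝ
  contC : ContinuousOn eC domC
  contL : ContinuousOn eL domL
  contR : ContinuousOn eR domR
  openC : ∀ s, IsOpen s → s ⊆ domC → IsOpen (eC '' s)
  openL : ∀ s, IsOpen s → s ⊆ domL → IsOpen (eL '' s)
  openR : ∀ s, IsOpen s → s ⊆ domR → IsOpen (eR '' s)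
  cover : ∀ x : M, x ∈ eC '' domC ∨ x ∈ eL '' domL ∨ x ∈ eR '' domR
  eqC : ∀ y ∈ domC, ∀ y' ∈ domC, eC y = eC y' ↔ ∃ i j, y' = y + perC i j
  eqL : ∀ y ∈ domL, ∀ y' ∈ domL, eL y = eL y' ↔ ∃ i j k, y' = y + perCore lamL i j k
  eqR : ∀ y ∈ domR, ∀ y' ∈ domR, eR y = eR y' ↔ ∃ i j k, y' = y + perCore lamR i j k
  eqCL : ∀ y ∈ domC, ∀ z ∈ domL,
    eC y = eL z ↔ y 0 < -1 ∧ ∃ i j k, z = toL y + perCore lamL i j k
  eqCR : ∀ y ∈ domC, ∀ z ∈ domR,
    eC y = eR z ↔ 3 < y 0 ∧ ∃ i j k, z = toR y + perCore lamR i j k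
  eqLR : ∀ y ∈ domL, ∀ z ∈ domR, eL y ≠ eR z
  /-- The preferred chart at `x` either inverts `eC` and is centred at some `-5/2 ≤ r ≤ 7/2`
  (this is so for every point of the cylinder with `-3/4 ≤ r ≤ 5/2`), or carries a flat metric with
  constant matrix. -/
  chart_cases : ∀ x : M,
    ((extChartAt (𝓡 3) x).target ⊆ domC ∧
      (extChartAt (𝓡 3) x x) 0 ∈ Icc (-(5/2) : ℝ) (7/2) ∧
      ∀ y ∈ (extChartAt (𝓡 3) x).target,
        (extChartAt (𝓡 3) x).symm y = eC y ∧ metricInChart g x y = gC y) ∨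
    ((∀ y ∈ domC, eC y = x → y 0 ∉ Icc (-(3/4) : ℝ) (5/2)) ∧
      ((∀ y ∈ (extChartAt (𝓡 3) x).target,
          (extChartAt (𝓡 3) x).symm y = eL y ∧ y ∈ domL ∧ metricInChart g x y = gL y) ∨
       (∀ y ∈ (extChartAt (𝓡 3) x).target,
          (extChartAt (𝓡 3) x).symm y = eR y ∧ y ∈ domR ∧ metricInChart g x y = gR y)))
  rad_cont : Continuous rad
  rad_C : ∀ y ∈ domC, rad (eC y) = max (-1) (min 3 (y 0))
  rad_L : ∀ y ∈ domL, rad (eL y) = -1
  rad_R : ∀ y ∈ domR, rad (eR y) = 3

attribute [instance] ModelSpec.top ModelSpec.charts ModelSpec.mfld ModelSpec.t2 ModelSpec.cpt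
  ModelSpec.conn

end Vale.Agent.P255
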