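import Vale.Agent.P255.Riem.Defs

/-!
# P255 module C2: a metric from compatible coefficient matrices in the preferred charts
-/

open scoped Manifold ContDiff
open Bundle Set

namespace Vale.Agent.P255

set_option maxSynthPendingDepth 3
set_option synthInstance.maxHeartbeats 200000

/-- The unit sublevel set of a positive definite form is bounded. -/
theorem form_sublevel_isVonNBounded (B : Form 3) (hpos : ∀ a, a ≠ 0 → 0 < B a a) :
    Bornology.IsVonNBounded ℝ {v : E3 | B v v < 1} := by
  obtain ⟨u, hu, hmin⟩ := (isCompact_sphere (0 : E3) 1).exists_isMinOn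
    (NormedSpace.sphere_nonempty.2 zero_le_one) (f := fun v => B v v) (by fun_prop)
  have hu0 : u ≠ 0 := fun h => by simp [h] at hu
  have hm : 0 < B u u := hpos u hu0
  refine NormedSpace.isVonNBounded_of_isBounded ℝ
    (Metric.isBounded_closedBall (x := (0 : E3)) (r := Real.sqrt (1 / B u u)) |>.subset ?_)
  intro v hv
  rw [Metric.mem_closedBall, dist_zero_right]
  rcases eq_or_ne v 0 with h | h
  · simp [h]
  · have hn : (0 : ℝ) < ‖v‖ := norm_pos_iff.2 h
    have h1 : B u u ≤ B (‖v‖⁻¹ • v) (‖v‖⁻¹ • v) :=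
      isMinOn_iff.1 hmin _ (by simp [norm_smul, hn.ne'])
    simp only [map_smul, ContinuousLinearMap.smul_apply, smul_eq_mul] at h1
    have h2 : B u u * ‖v‖ ^ 2 ≤ B v v := by
      calc B u u * ‖v‖ ^ 2 ≤ ‖v‖⁻¹ * (‖v‖⁻¹ * B v v) * ‖v‖ ^ 2 :=
            mul_le_mul_of_nonneg_right h1 (sq_nonneg _)
        _ = B v v := by field_simp
    apply Real.le_sqrt_of_sq_le
    rw [le_div_iff₀ hm]
    have hv' : B v v < 1 := hv
    linarith

theorem exists_metric_of_coeff {M : Type} [TopologicalSpace M] [ChartedSpace E3 M]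
    [IsManifold (𝓡 3) ∞ M] (G : M → E3 → Form 3)
    (hsm : ∀ x, ContDiffOn ℝ ∞ (G x) (extChartAt (𝓡 3) x).target)
    (hsymm : ∀ x, ∀ y ∈ (extChartAt (𝓡 3) x).target, ∀ a b, G x y a b = G x y b a)
    (hpos : ∀ x, ∀ y ∈ (extChartAt (𝓡 3) x).target, ∀ a, a ≠ 0 → 0 < G x y a a)
    (hcompat : ∀ x x', ∀ p ∈ (extChartAt (𝓡 3) x).source ∩ (extChartAt (𝓡 3) x').source,
      G x (extChartAt (𝓡 3) x p) =
        (G x' (extChartAt (𝓡 3) x' p)).bilinearComp
          (fderiv ℝ (extChartAt (𝓡 3) x' ∘ (extChartAt (𝓡 3) x).symm) (extChartAt (𝓡 3) x p))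
          (fderiv ℝ (extChartAt (𝓡 3) x' ∘ (extChartAt (𝓡 3) x).symm) (extChartAt (𝓡 3) x p))) :
    ∃ g : Metric 3 M, ∀ x, ∀ y ∈ (extChartAt (𝓡 3) x).target, metricInChart g x y = G x y := by
  let B : M → Form 3 := fun p => G p (extChartAt (𝓡 3) p p)
  have hB : ∀ p : M, extChartAt (𝓡 3) p p ∈ (extChartAt (𝓡 3) p).target := fun p =>
    mem_extChartAt_target p
  let g : Metric 3 M :=
    { inner := fun p => B p
      symm := fun p v w => hsymm p _ (hB p) v w
      pos := fun p v hv => hpos p _ (hB p) v hv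
      isVonNBounded := fun p => by
        change Bornology.IsVonNBounded ℝ {v : E3 | B p v v < 1}
        exact form_sublevel_isVonNBounded (B p) (hpos p _ (hB p))
      contMDiff := by
        intro x0
        refine (contMDiffAt_section (E := fun b : M =>
          TangentSpace (𝓡 3) b →L[ℝ] TangentSpace (𝓡 3) b →L[ℝ] ℝ) (s := fun b => B b) x0).2 ?_
        have hcong : ContMDiffAt (𝓡 3) 𝓘(ℝ, Form 3) ∞
            (fun p => G x0 (extChartAt (𝓡 3) x0 p)) x0 := by
          have h1 : ContMDiffAt 𝓘(ℝ, E3) 𝓘(ℝ, Form 3) ∞ (G x0) (extChartAt (𝓡 3) x0 x0) :=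
            contMDiffAt_iff_contDiffAt.2 ((hsm x0).contDiffAt
              ((isOpen_extChartAt_target x0).mem_nhds (hB x0)))
          exact ContMDiffAt.comp x0 h1 contMDiffAt_extChartAt
        refine hcong.congr_of_eventuallyEq ?_
        filter_upwards [extChartAt_source_mem_nhds (I := 𝓡 3) x0] with p hp
        have hpc : p ∈ (chartAt E3 x0).source := by rwa [extChartAt_source] at hp
        rw [hcompat x0 p p ⟨hp, mem_extChartAt_source p⟩]
        ext v w
        rw [hom_trivializationAt_apply]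
        show (ContinuousLinearMap.inCoordinates E3 (TangentSpace (𝓡 3)) (E3 →L[ℝ] ℝ)
          (fun b : M => TangentSpace (𝓡 3) b →L[ℝ] ℝ) x0 p x0 p (B p)) v w = _
        refine (inCoordinates_apply_eq₂ (F₁ := E3) (F₂ := E3) (F₃ := ℝ)
          (E₁ := fun b : M => TangentSpace (𝓡 3) b) (E₂ := fun b : M => TangentSpace (𝓡 3) b)
          (E₃ := Bundle.Trivial M ℝ) hpc hpc (mem_univ _)).trans ?_
        have hb : p ∈ (trivializationAt E3 (fun b : M => TangentSpace (𝓡 3) b) x0).baseSet := hpc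
        rw [← Trivialization.symmL_apply (R := ℝ) _ hb, ← Trivialization.symmL_apply (R := ℝ) _ hb,
          TangentBundle.symmL_trivializationAt_eq_core hpc]
        simp only [tangentBundleCore_coordChange, ContinuousLinearMap.bilinearComp_apply,
          ModelWithCorners.range_eq_univ, fderivWithin_univ]
        rw [show Trivialization.linearMapAt ℝ (trivializationAt ℝ (Bundle.Trivial M ℝ) x0) p =
          LinearMap.id by simp]
        rfl }
  refine ⟨g, fun x y hy => ?_⟩
  have hp : (extChartAt (𝓡 3) x).symm y ∈ (extChartAt (𝓡 3) x).source :=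
    (extChartAt (𝓡 3) x).map_target hy
  have hd : MDifferentiableAt (𝓡 3) (𝓡 3) (extChartAt (𝓡 3) x).symm y := by
    have h := mdifferentiableWithinAt_extChartAt_symm (I := 𝓡 3) hy
    rwa [ModelWithCorners.range_eq_univ, mdifferentiableWithinAt_univ] at h
  have hD : mfderiv (𝓡 3) (𝓡 3) (extChartAt (𝓡 3) x).symm y =
      fderiv ℝ (extChartAt (𝓡 3) ((extChartAt (𝓡 3) x).symm y) ∘ (extChartAt (𝓡 3) x).symm) y := by
    rw [hd.mfderiv]
    simp [writtenInExtChartAt, fderivWithin_univ, Function.comp_def]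
    rfl
  have h := hcompat x ((extChartAt (𝓡 3) x).symm y) _ ⟨hp, mem_extChartAt_source _⟩
  rw [(extChartAt (𝓡 3) x).right_inv hy] at h
  rw [h]
  simp only [metricInChart, hD]
  rfl

end Vale.Agent.P255
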