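import Vale.Agent.P255.Model.Atlas
import Vale.Agent.P255.Model.MetricOfCoeff

/-!
# P255 module C: the manifold and the metric
-/

open scoped Manifold ContDiff Topology
open Set

namespace Vale.Agent.P255

open Glue in
theorem modelSpec_nonempty : Nonempty ModelSpec := by
  obtain ⟨g, hg⟩ := exists_metric_of_coeff (M := Mod) (fun x => gP (repK x))
    (fun x => by rw [extChartAt_target_eq]; exact (gP_smooth _).mono inter_subset_right)
    (fun x y _ a b => gP_symm _ y a b)
    (fun x y hy a ha => gP_pos (by rw [extChartAt_target_eq] at hy; exact hy.2) ha)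
    coeff_compat
  have eqB : ∀ b, ∀ y ∈ domP (.core b), ∀ y' ∈ domP (.core b),
      eP (.core b) y = eP (.core b) y' ↔ ∃ i j k, y' = y + perCore (sideB b) i j k := by
    intro b y hy y' hy'
    rw [eP_eq_iff hy hy']
    simp only [RelP, true_and, mem_latB, sub_eq_iff_eq_add']
  have eqG : ∀ b, ∀ y ∈ domP .cyl, ∀ z ∈ domP (.core b),
      eP .cyl y = eP (.core b) z ↔
        y ∈ overB b ∧ ∃ i j k, z = trB b y + perCore (sideB b) i j k := by
    intro b y hy z hz
    rw [eP_eq_iff hy hz]
    simp only [RelP, glue, mem_latB, sub_eq_iff_eq_add']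
  refine ⟨{
    M := Mod
    g := g
    eC := eP .cyl
    eL := eP (.core false)
    eR := eP (.core true)
    rad := radM
    contC := eP_continuousOn .cyl
    contL := eP_continuousOn (.core false)
    contR := eP_continuousOn (.core true)
    openC := fun s hs h => eP_image_open (κ := .cyl) hs h
    openL := fun s hs h => eP_image_open (κ := .core false) hs h
    openR := fun s hs h => eP_image_open (κ := .core true) hs h
    cover := ?_
    eqC := ?_
    eqL := eqB false
    eqR := eqB true
    eqCL := ?_
    eqCR := ?_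
    eqLR := ?_
    chart_cases := ?_
    rad_cont := radM_continuous
    rad_C := fun y hy => radM_eP (κ := .cyl) hy
    rad_L := fun y hy => radM_eP (κ := .core false) hy
    rad_R := fun y hy => radM_eP (κ := .core true) hy }⟩
  · intro x
    obtain ⟨κ, y, hy, rfl⟩ := eP_surj x
    rcases κ with _ | _ | _
    · exact .inl ⟨y, hy, rfl⟩
    · exact .inr (.inl ⟨y, hy, rfl⟩)
    · exact .inr (.inr ⟨y, hy, rfl⟩)
  · intro y hy y' hy'
    rw [eP_eq_iff (κ := .cyl) (κ' := .cyl) hy hy']
    simp only [RelP, mem_latC, sub_eq_iff_eq_add']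
  · intro y hy z hz
    rw [eqG false y hy z hz]
    exact and_congr_left' ⟨fun h => h.2, fun h => ⟨hy.1, h⟩⟩
  · intro y hy z hz
    rw [eqG true y hy z hz]
    exact and_congr_left' ⟨fun h => h.1, fun h => ⟨h, hy.2⟩⟩
  · intro y hy z hz h
    exact Bool.false_ne_true ((eP_eq_iff (κ := .core false) (κ' := .core true) hy hz).1 h).1
  · intro x
    obtain ⟨hd, he, hc, hm⟩ := rep_spec x
    rw [extChartAt_center, extChartAt_target_eq, extChartAt_symm_eq]
    have hgx : ∀ y ∈ chartDom x, metricInChart g x y = gP (repK x) y := fun y hy =>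
      hg x y (by rw [extChartAt_target_eq]; exact hy)
    have hsub : ∀ y ∈ chartDom x, y ∈ domP (repK x) := fun y hy => hy.2
    generalize repK x = κ at hd he hc hm hgx hsub ⊢
    rcases κ with _ | b
    · exact .inl ⟨hsub, hc rfl, fun y hy => ⟨rfl, hgx y hy⟩⟩
    · refine .inr ⟨fun y hy hyx h0 => ?_, ?_⟩
      · exact nomatch hm ⟨y, hy, ⟨by linarith [h0.1], by linarith [h0.2]⟩, hyx⟩
      · cases b
        · exact .inl fun y hy => ⟨rfl, hsub y hy, hgx y hy⟩
        · exact .inr fun y hy => ⟨rfl, hsub y hy, hgx y hy⟩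

end Vale.Agent.P255
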