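import Vale.Agent.P255.Model.Space

/-!
# P255 module C: Hausdorff, compact, connected; the radius function
-/

open scoped ContDiff Topology
open Set

namespace Vale.Agent.P255.Glue

/-- the width of the collar, seen from the core -/
noncomputable def marB : Bool → ℝ
  | false => 1
  | true => 1 / 4

theorem marB_bounds : ∀ b, 0 < marB b ∧ marB b ≤ 1
  | false => ⟨by norm_num [marB], by norm_num [marB]⟩
  | true => ⟨by norm_num [marB], by norm_num [marB]⟩

theorem toL_norm {y : E3} (hy : y ∈ domC) (h : y 0 ≤ -(1/2)) :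
    toL y 0 ^ 2 + toL y 1 ^ 2 = (rhoL + (-1 - y 0)) ^ 2 := by
  have e : wL (y 0) / (2 * Real.pi) = rhoL + (-1 - y 0) := by
    rw [wL_flat hy h, rhoL]; field_simp
  simp only [toL, vec, Matrix.cons_val_zero, Matrix.cons_val_one, e]
  nlinarith [Real.sin_sq_add_cos_sq (2 * Real.pi * (y 1 - y 2))]

theorem toR_norm {y : E3} (hy : y ∈ domC) (h : 2 ≤ y 0) :
    toR y 0 ^ 2 + toR y 1 ^ 2 = (rhoR + (y 0 - 3)) ^ 2 := by
  have e : wR (y 0) / (2 * Real.pi) = rhoR + (y 0 - 3) := by
    rw [wR_flat hy h, rhoR, wR_flat (r := 3) ⟨by norm_num, by norm_num⟩ (by norm_num)]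
    field_simp; ring
  simp only [toR, vec, Matrix.cons_val_zero, Matrix.cons_val_one, e]
  nlinarith [Real.sin_sq_add_cos_sq (2 * Real.pi * y 2)]

theorem domCore_add {b : Bool} {z w : E3} (hz : z ∈ domP (.core b)) (hw : w ∈ latP (.core b)) :
    z + w ∈ domP (.core b) := by
  obtain ⟨⟨i, hi⟩, ⟨j, hj⟩, -⟩ := hw
  intro i' j'
  have := hz (i' - i) (j' - j)
  push_cast at this
  simp only [PiLp.add_apply, hi, hj]
  convert this using 3 <;> ring

/-- a point of the closed collar glued into the open core is in the open collar -/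
theorem glue_closed {b : Bool} {y z : E3} (hy : y ∈ domC) (hz : z ∈ domP (.core b))
    (hc : y ∈ clB b) (hm : z - trB b y ∈ latP (.core b)) : y ∈ overB b := by
  have hd : trB b y ∈ domP (.core b) := by
    simpa using domCore_add hz ((latP (.core b)).neg_mem hm)
  have h00 := hd 0 0
  cases b
  · refine ⟨hy.1, lt_of_le_of_ne hc fun e => ?_⟩
    have hn := toL_norm hy (by rw [e]; norm_num)
    rw [e] at hn
    simp only [trB, rhoB, Int.cast_zero, mul_zero, sub_zero] at h00
    nlinarith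
  · refine ⟨lt_of_le_of_ne hc fun e => ?_, hy.2⟩
    have hn := toR_norm hy (by rw [← e]; norm_num)
    rw [← e] at hn
    simp only [trB, rhoB, Int.cast_zero, mul_zero, sub_zero] at h00
    nlinarith

theorem overB_subset_clB : ∀ b, overB b ⊆ clB b
  | false => fun _ h => h.2.le
  | true => fun _ h => h.1.le

theorem isClosed_clB : ∀ b, IsClosed (clB b)
  | false => isClosed_le (continuous_coord 0) continuous_const
  | true => isClosed_le continuous_const (continuous_coord 0)

theorem isClosed_rel (κ κ' : Piece) :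
    IsClosed {q : ↥(domP κ) × ↥(domP κ') | RelP κ κ' q.1 q.2} := by
  have hd : ∀ {κ κ' : Piece}, Continuous fun q : ↥(domP κ) × ↥(domP κ') => (q.2 : E3) - q.1 :=
    fun {_ _} => (continuous_subtype_val.comp continuous_snd).sub
      (continuous_subtype_val.comp continuous_fst)
  have hglue : ∀ b, IsClosed
      {q : ↥(domP .cyl) × ↥(domP (.core b)) | glue b (q.1 : E3) q.2} := by
    intro b
    have : {q : ↥(domP .cyl) × ↥(domP (.core b)) | glue b (q.1 : E3) q.2} =
        (fun q => (q.1 : E3)) ⁻¹' clB b ∩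
          (fun q => (q.2 : E3) - trB b q.1) ⁻¹' (latP (.core b) : Set E3) := by
      ext q
      exact ⟨fun h => ⟨overB_subset_clB b h.1, h.2⟩,
        fun h => ⟨glue_closed q.1.2 q.2.2 h.1 h.2, h.2⟩⟩
    rw [this]
    exact ((isClosed_clB b).preimage (continuous_subtype_val.comp continuous_fst)).inter
      ((isClosed_latP _).preimage ((continuous_subtype_val.comp continuous_snd).sub
        ((trB_continuousOn b).comp_continuous (continuous_subtype_val.comp continuous_fst)
          fun q => q.1.2)))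
  cases κ <;> cases κ'
  · exact (isClosed_latP .cyl).preimage hd
  · exact hglue _
  · exact (hglue _).preimage continuous_swap
  · rename_i b b'
    by_cases e : b = b'
    · simp only [RelP, e, true_and]
      exact (isClosed_latP (.core b')).preimage hd
    · simp [RelP, e]

instance : T2Space Mod := by
  rw [t2Space_iff_of_isOpenQuotientMap isOpenQuotientMap_piP, ← isOpen_compl_iff,
    isOpen_iff_mem_nhds]
  rintro ⟨⟨κ, y⟩, ⟨κ', y'⟩⟩ hne
  have hne' : (y, y') ∈ {q : ↥(domP κ) × ↥(domP κ') | RelP κ κ' q.1 q.2}ᶜ :=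
    fun h => hne (Quotient.eq.2 h)
  have hm : IsOpenMap (Prod.map (fun z : ↥(domP κ) => (⟨κ, z⟩ : PreModel))
      (fun z : ↥(domP κ') => (⟨κ', z⟩ : PreModel))) :=
    (isOpenMap_sigmaMk (σ := fun κ => ↥(domP κ))).prodMap
      (isOpenMap_sigmaMk (σ := fun κ => ↥(domP κ)))
  refine Filter.mem_of_superset ((hm _ (isClosed_rel κ κ').isOpen_compl).mem_nhds
    ⟨_, hne', rfl⟩) ?_
  rintro _ ⟨⟨z, z'⟩, hz, rfl⟩ h
  exact hz (Quotient.eq.1 h)

/-- radius of a point of a piece -/
noncomputable def radP : Piece → E3 → ℝ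
  | .cyl, y => max (-1) (min 3 (y 0))
  | .core false, _ => -1
  | .core true, _ => 3

theorem radP_glue {b : Bool} {y : E3} (h : y ∈ overB b) (z : E3) :
    radP .cyl y = radP (.core b) z := by
  cases b <;> simp only [overB, overL, overR, mem_ofPred_eq, mem_Ioo] at h <;> simp only [radP]
  · rw [min_eq_right (by linarith), max_eq_left (by linarith)]
  · rw [min_eq_left (by linarith), max_eq_right (by norm_num)]

/-- the radius function -/
noncomputable def radM : Mod → ℝ := Quotient.lift (fun p : PreModel => radP p.1 p.2.1) <| by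
  rintro ⟨κ, y, _⟩ ⟨κ', y', _⟩ (h : RelP κ κ' y y')
  rcases κ with _ | b <;> rcases κ' with _ | b'
  · have := coord0_of_latC h
    simp only [PiLp.sub_apply, sub_eq_zero] at this
    simp [radP, this]
  · exact radP_glue h.1 y'
  · exact (radP_glue h.1 y).symm
  · obtain ⟨rfl, -⟩ := h
    cases b <;> rfl

theorem radM_eP {κ : Piece} {y : E3} (h : y ∈ domP κ) : radM (eP κ y) = radP κ y := by
  rw [eP_mem h]; rfl

theorem radM_continuous : Continuous radM := by
  refine Continuous.quotient_lift (continuous_sigma fun κ => ?_) _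
  rcases κ with _ | _ | _
  · exact continuous_const.max (continuous_const.min
      ((continuous_coord 0).comp continuous_subtype_val))
  · exact continuous_const
  · exact continuous_const

/-- a compact piece of the cylinder -/
def kCyl : Set E3 :=
  {y | y 0 ∈ Icc (-(5/2) : ℝ) (7/2) ∧ y 1 ∈ Icc (0:ℝ) 1 ∧ y 2 ∈ Icc (0:ℝ) 1}

/-- a compact piece of a core -/
def kCore (b : Bool) : Set E3 :=
  {y | (y 0 ∈ Icc 0 (sideB b) ∧ y 1 ∈ Icc 0 (sideB b) ∧ y 2 ∈ Icc (0:ℝ) 1) ∧
    ∀ i j : ℤ, (rhoB b + marB b) ^ 2 ≤ (y 0 - sideB b * i) ^ 2 + (y 1 - sideB b * j) ^ 2}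

theorem isCompact_box (a b : Fin 3 → ℝ) : IsCompact {y : E3 | ∀ i, y i ∈ Icc (a i) (b i)} := by
  have h := (isCompact_univ_pi fun i => isCompact_Icc (a := a i) (b := b i))
  have := h.image (PiLp.continuous_toLp 2 fun _ : Fin 3 => ℝ)
  convert this
  ext y
  exact ⟨fun hy => ⟨WithLp.ofLp y, fun i _ => hy i, rfl⟩,
    fun ⟨f, hf, he⟩ i => he ▸ hf i trivial⟩

theorem isCompact_kCyl : IsCompact kCyl := by
  convert isCompact_box ![-(5/2), 0, 0] ![7/2, 1, 1] using 1
  ext y; simp [kCyl, Fin.forall_fin_succ]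

theorem isCompact_kCore (b : Bool) : IsCompact (kCore b) := by
  refine (isCompact_box 0 ![sideB b, sideB b, 1]).of_isClosed_subset ?_ ?_
  · have hI : ∀ (i : Fin 3) (a c : ℝ), IsClosed {y : E3 | y i ∈ Icc a c} := fun i a c =>
      isClosed_Icc.preimage (continuous_coord i)
    refine ((hI 0 _ _).inter ((hI 1 _ _).inter (hI 2 _ _))).inter ?_
    have hs : {y : E3 | ∀ i j : ℤ, (rhoB b + marB b) ^ 2 ≤
        (y 0 - sideB b * i) ^ 2 + (y 1 - sideB b * j) ^ 2} = ⋂ i : ℤ, ⋂ j : ℤ, {y : E3 |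
        (rhoB b + marB b) ^ 2 ≤ (y 0 - sideB b * i) ^ 2 + (y 1 - sideB b * j) ^ 2} := by
      ext y; simp
    show IsClosed {y : E3 | ∀ i j : ℤ, (rhoB b + marB b) ^ 2 ≤
        (y 0 - sideB b * i) ^ 2 + (y 1 - sideB b * j) ^ 2}
    rw [hs]
    exact isClosed_iInter fun i => isClosed_iInter fun j => isClosed_le continuous_const
      ((((continuous_coord 0).sub continuous_const).pow 2).add
        (((continuous_coord 1).sub continuous_const).pow 2))
  · rintro y ⟨⟨h0, h1, h2⟩, -⟩ i
    fin_cases i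
    · exact h0
    · exact h1
    · exact h2

theorem kCore_subset (b : Bool) : kCore b ⊆ domP (.core b) := fun y hy i j => by
  have := hy.2 i j
  nlinarith [rhoB_pos b, (marB_bounds b).1]

theorem kCyl_subset : kCyl ⊆ domC := fun y hy =>
  ⟨lt_of_lt_of_le (by norm_num) hy.1.1, lt_of_le_of_lt hy.1.2 (by norm_num)⟩

theorem eP_eq_of_lat {κ : Piece} {y y' : E3} (h : y ∈ domP κ) (h' : y' ∈ domP κ)
    (hm : y' - y ∈ latP κ) : eP κ y = eP κ y' := by
  refine (eP_eq_iff h h').2 ?_
  cases κ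
  · exact hm
  · exact ⟨rfl, hm⟩

theorem eP_glue {b : Bool} {y : E3} (h : y ∈ overB b) : eP .cyl y = eP (.core b) (trB b y) :=
  (eP_eq_iff (overB_subset b h) (trB_mem h)).2 ⟨h, by simp⟩

theorem cyl_mem_image {y : E3} (hy : y ∈ domC) (h : y 0 ∈ Icc (-(5/2) : ℝ) (7/2)) :
    eP .cyl y ∈ eP .cyl '' kCyl := by
  set y' : E3 := vec (y 0) (Int.fract (y 1)) (Int.fract (y 2)) with he
  have h1 := Int.fract_nonneg (y 1)
  have h1' := (Int.fract_lt_one (y 1)).le
  have h2 := Int.fract_nonneg (y 2)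
  have h2' := (Int.fract_lt_one (y 2)).le
  have hk : y' ∈ kCyl := by
    refine ⟨?_, ?_, ?_⟩ <;> simp [he, vec, h.1, h.2, h1, h1', h2, h2']
  refine ⟨y', hk, eP_eq_of_lat (κ := .cyl) (kCyl_subset hk) hy (mem_latC.2
    ⟨⌊y 1⌋, ⌊y 2⌋, ?_⟩)⟩
  ext n; fin_cases n <;> simp [he, vec, perC]

theorem trB_range {b : Bool} {z : E3} {i j : ℤ} (hd : z ∈ domP (.core b))
    (hlt : (z 0 - sideB b * i) ^ 2 + (z 1 - sideB b * j) ^ 2 < (rhoB b + marB b) ^ 2) :
    ∃ y ∈ overB b, ∃ i j k, z = trB b y + perCore (sideB b) i j k := by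
  have hlo := hd i j
  cases b
  · exact toL_range.2 ⟨i, j, hlo, hlt.trans_le
      (by simp only [marB, rhoB]; nlinarith [rhoL_pos])⟩
  · exact toR_range.2 ⟨i, j, hlo, hlt.trans_le
      (by simp only [marB, rhoB]; nlinarith [rhoR_pos])⟩

/-- a core point close to a disc lies in the compact part of the cylinder -/
theorem near_disc {b : Bool} {z : E3} {i j : ℤ} (hd : z ∈ domP (.core b))
    (hlt : (z 0 - sideB b * i) ^ 2 + (z 1 - sideB b * j) ^ 2 < (rhoB b + marB b) ^ 2) :
    ∃ y ∈ domC, y 0 ∈ Icc (-(5/2) : ℝ) (7/2) ∧ eP .cyl y = eP (.core b) z := by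
  obtain ⟨y, hy, i', j', k', he⟩ := trB_range hd hlt
  refine ⟨y, overB_subset b hy, ?_,
    (eP_eq_iff (overB_subset b hy) hd).2 ⟨hy, mem_latB.2 ⟨i', j', k', by rw [he]; simp⟩⟩⟩
  have hsq : ∀ (n m : ℤ) (a : ℝ), (a - sideB b * n) ^ 2 + (a - sideB b * m) ^ 2 < sideB b ^ 2 / 2 →
      n = m := by
    intro n m a h
    by_contra hnm
    have h1 : (1:ℝ) ≤ ((n:ℝ) - m) ^ 2 := by
      have h0 := Int.one_le_abs (sub_ne_zero.2 hnm)
      have : (1:ℤ) ≤ (n - m) ^ 2 := by nlinarith [sq_abs (n - m)]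
      exact_mod_cast this
    have h2 : sideB b ^ 2 ≤ (sideB b * n - sideB b * m) ^ 2 := by
      have := mul_le_mul_of_nonneg_left h1 (sq_nonneg (sideB b))
      linarith [show (sideB b * n - sideB b * m) ^ 2 = sideB b ^ 2 * ((n:ℝ) - m) ^ 2 by ring]
    nlinarith [sq_nonneg (2 * a - sideB b * n - sideB b * m)]
  have z0 : z 0 - sideB b * i' = trB b y 0 := by rw [he]; simp [perCore, vec]
  have z1 : z 1 - sideB b * j' = trB b y 1 := by rw [he]; simp [perCore, vec]
  have hrho := rhoB_pos b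
  have hlam := sideB_eq b
  have hm := marB_bounds b
  have hlt2 : (z 0 - sideB b * i) ^ 2 + (z 1 - sideB b * j) ^ 2 < (rhoB b + 2) ^ 2 :=
    hlt.trans_le (by nlinarith)
  have hr : trB b y 0 ^ 2 + trB b y 1 ^ 2 < (rhoB b + 2) ^ 2 := by
    cases b
    · have := toL_norm (overB_subset _ hy) (by linarith [hy.2])
      simp only [trB, rhoB]; nlinarith [hy.1, hy.2, rhoL_pos]
    · have := toR_norm (overB_subset _ hy) (by linarith [hy.1])
      simp only [trB, rhoB]; nlinarith [hy.1, hy.2, rhoR_pos]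
  have hbig : (rhoB b + 2) ^ 2 + (rhoB b + 2) ^ 2 ≤ sideB b ^ 2 / 2 := by rw [hlam]; nlinarith
  obtain rfl : i = i' := hsq i i' (z 0) (by
    rw [z0]; nlinarith [sq_nonneg (z 1 - sideB b * j), sq_nonneg (trB b y 1)])
  obtain rfl : j = j' := hsq j j' (z 1) (by
    rw [z1]; nlinarith [sq_nonneg (z 0 - sideB b * i), sq_nonneg (trB b y 0)])
  rw [z0, z1] at hlt
  cases b
  · rw [show trB false y 0 ^ 2 + trB false y 1 ^ 2 = _ from
      toL_norm (overB_subset _ hy) (by linarith [hy.2])] at hlt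
    simp only [rhoB, marB] at hlt
    exact ⟨by nlinarith [hy.2, rhoL_pos], by linarith [hy.2]⟩
  · rw [show trB true y 0 ^ 2 + trB true y 1 ^ 2 = _ from
      toR_norm (overB_subset _ hy) (by linarith [hy.1])] at hlt
    simp only [rhoB, marB] at hlt
    exact ⟨by linarith [hy.1], by nlinarith [hy.1, rhoR_pos]⟩

theorem core_mem_image {b : Bool} {z : E3} (hz : z ∈ domP (.core b)) :
    eP (.core b) z ∈ eP .cyl '' kCyl ∪ eP (.core b) '' kCore b := by
  have hl := sideB_pos b
  set w : E3 := perCore (sideB b) ⌊z 0 / sideB b⌋ ⌊z 1 / sideB b⌋ ⌊z 2⌋ with hw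
  have hwm : -w ∈ latP (.core b) := (latP _).neg_mem (mem_latB.2 ⟨_, _, _, hw⟩)
  have hzd : z - w ∈ domP (.core b) := by simpa [sub_eq_add_neg] using domCore_add hz hwm
  have he : eP (.core b) (z - w) = eP (.core b) z :=
    eP_eq_of_lat hzd hz (by simpa using mem_latB.2 ⟨_, _, _, hw⟩)
  rw [← he]
  by_cases hfar : ∀ i j : ℤ, (rhoB b + marB b) ^ 2 ≤
      ((z - w) 0 - sideB b * i) ^ 2 + ((z - w) 1 - sideB b * j) ^ 2
  · right
    refine ⟨z - w, ⟨⟨?_, ?_, ?_⟩, hfar⟩, rfl⟩
    · simp only [hw, perCore, vec, PiLp.sub_apply, Matrix.cons_val_zero]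
      have h1 := Int.floor_le (z 0 / sideB b)
      have h2 := Int.lt_floor_add_one (z 0 / sideB b)
      rw [le_div_iff₀ hl] at h1
      rw [div_lt_iff₀ hl] at h2
      constructor <;> nlinarith
    · simp only [hw, perCore, vec, PiLp.sub_apply, Matrix.cons_val_one, Matrix.cons_val_zero]
      have h1 := Int.floor_le (z 1 / sideB b)
      have h2 := Int.lt_floor_add_one (z 1 / sideB b)
      rw [le_div_iff₀ hl] at h1
      rw [div_lt_iff₀ hl] at h2
      constructor <;> nlinarith
    · simp [hw, perCore, vec, (Int.fract_lt_one (z 2)).le]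
  · push Not at hfar
    obtain ⟨i, j, hlt⟩ := hfar
    obtain ⟨y, hy, h0, he'⟩ := near_disc hzd hlt
    left
    rw [← he']
    exact cyl_mem_image hy h0

instance : CompactSpace Mod := by
  refine ⟨?_⟩
  have : (univ : Set Mod) = eP .cyl '' kCyl ∪ eP (.core false) '' kCore false ∪
      eP (.core true) '' kCore true := by
    symm
    refine eq_univ_of_forall fun x => ?_
    have hcore : ∀ b z, z ∈ domP (.core b) → eP (.core b) z ∈ eP .cyl '' kCyl ∪
        eP (.core false) '' kCore false ∪ eP (.core true) '' kCore true := by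
      intro b z hz
      rcases core_mem_image hz with h | h
      · exact .inl (.inl h)
      · cases b
        · exact .inl (.inr h)
        · exact .inr h
    obtain ⟨κ, y, hy, rfl⟩ := eP_surj x
    rcases κ with _ | b
    · by_cases h : y 0 ∈ Icc (-(5/2) : ℝ) (7/2)
      · exact .inl (.inl (cyl_mem_image hy h))
      · rw [mem_Icc, not_and_or, not_le, not_le] at h
        rcases h with h | h
        · have ho : y ∈ overB false := ⟨hy.1, h.trans (by norm_num)⟩
          rw [eP_glue ho]; exact hcore _ _ (trB_mem ho)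
        · have ho : y ∈ overB true := ⟨lt_trans (by norm_num) h, hy.2⟩
          rw [eP_glue ho]; exact hcore _ _ (trB_mem ho)
    · exact hcore b y hy
  rw [this]
  exact ((isCompact_kCyl.image_of_continuousOn
      ((eP_continuousOn .cyl).mono kCyl_subset)).union
    ((isCompact_kCore false).image_of_continuousOn
      ((eP_continuousOn (.core false)).mono (kCore_subset false)))).union
    ((isCompact_kCore true).image_of_continuousOn
      ((eP_continuousOn (.core true)).mono (kCore_subset true)))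

theorem isPreconnected_domCore (b : Bool) : IsPreconnected (domP (.core b)) := by
  set L := sideB b with hL
  have hl : 0 < L := sideB_pos b
  have hr : rhoB b ^ 2 < L ^ 2 / 4 := by
    rw [hL, sideB_eq]; nlinarith [rhoB_pos b]
  have half : ∀ n i : ℤ, L ^ 2 / 4 ≤ (L * (n + 1/2) - L * i) ^ 2 := by
    intro n i
    rcases le_or_gt i n with h | h
    · have : (i:ℝ) ≤ n := by exact_mod_cast h
      have : L / 2 ≤ L * ((n:ℝ) + 1/2) - L * i := by nlinarith
      nlinarith
    · have : (n:ℝ) + 1 ≤ i := by exact_mod_cast h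
      have : L / 2 ≤ L * i - L * ((n:ℝ) + 1/2) := by nlinarith
      nlinarith
  refine isPreconnected_of_forall (vec (L/2) (L/2) 0) fun z hz => ?_
  set n := ⌊z 0 / L⌋ with hn
  set t := L * ((n:ℝ) + 1/2) with ht
  let S1 : Set E3 := (fun x => vec x (z 1) (z 2)) '' uIcc (z 0) t
  let S2 : Set E3 := {y | y 0 = t}
  let S3 : Set E3 := {y | y 1 = L / 2}
  have h1 : S1 ⊆ domP (.core b) := by
    rintro _ ⟨x, hx, rfl⟩ i j
    have hz' := hz i j
    rw [← hL] at hz'
    simp only [← hL, vec, Matrix.cons_val_zero, Matrix.cons_val_one]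
    have a1 := Int.floor_le (z 0 / L)
    have a2 := Int.lt_floor_add_one (z 0 / L)
    rw [le_div_iff₀ hl, ← hn] at a1
    rw [div_lt_iff₀ hl, ← hn] at a2
    have ht2 : rhoB b ^ 2 < (t - L * i) ^ 2 + (z 1 - L * j) ^ 2 := by
      rw [ht]; nlinarith [half n i, sq_nonneg (z 1 - L * j)]
    rcases le_or_gt i n with h | h
    · have hi : (i:ℝ) ≤ n := by exact_mod_cast h
      have hi' : L * i ≤ L * n := mul_le_mul_of_nonneg_left hi hl.le
      rcases min_le_iff.1 hx.1 with hx' | hx'
      · nlinarith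
      · nlinarith
    · have hi : (n:ℝ) + 1 ≤ i := by exact_mod_cast h
      have hi' : L * ((n:ℝ) + 1) ≤ L * i := mul_le_mul_of_nonneg_left hi hl.le
      rcases le_max_iff.1 hx.2 with hx' | hx'
      · nlinarith
      · nlinarith
  have h2 : S2 ⊆ domP (.core b) := fun y (hy : y 0 = t) i j => by
    have := half n i
    rw [hy, ← hL, ht]; nlinarith [sq_nonneg (y 1 - L * j)]
  have h3 : S3 ⊆ domP (.core b) := fun y (hy : y 1 = L / 2) i j => by
    have := half 0 j
    rw [hy, ← hL]; push_cast at this; nlinarith [sq_nonneg (y 0 - L * i)]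
  have hc : ∀ (i : Fin 3) (a : ℝ), IsPreconnected {y : E3 | y i = a} := fun i a => by
    refine Convex.isPreconnected fun u hu v hv p q _ _ hpq => ?_
    simp only [mem_ofPred_eq] at hu hv ⊢
    simp [hu, hv, ← add_mul, hpq]
  have hp1 : IsPreconnected S1 := by
    refine isPreconnected_uIcc.image _ (Continuous.continuousOn ?_)
    exact (PiLp.continuous_toLp 2 _).comp (continuous_pi fun i => by
      fin_cases i <;> simp <;> fun_prop)
  refine ⟨(S1 ∪ S2) ∪ S3, union_subset (union_subset h1 h2) h3, .inr ?_, .inl (.inl ?_), ?_⟩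
  · simp [S3, vec]
  · exact ⟨z 0, left_mem_uIcc, by ext i; fin_cases i <;> simp [vec]⟩
  · refine IsPreconnected.union (vec t (L/2) 0) (.inr ?_) ?_
      (IsPreconnected.union (vec t (z 1) (z 2)) ⟨t, right_mem_uIcc, rfl⟩ ?_ hp1 (hc 0 t))
      (hc 1 (L/2))
    · simp [S2, vec]
    · simp [S3, vec]
    · simp [S2, vec]

instance : ConnectedSpace Mod := by
  have hC : IsPreconnected (eP .cyl '' domC) :=
    ((convex_Ioo (-3:ℝ) 4).linear_preimage
      (EuclideanSpace.proj (𝕜 := ℝ) (0 : Fin 3)).toLinearMap).isPreconnected.image _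
      (eP_continuousOn .cyl)
  have hB : ∀ b, IsPreconnected (eP (.core b) '' domP (.core b)) := fun b =>
    (isPreconnected_domCore b).image _ (eP_continuousOn _)
  have pL : vec (-2) 0 0 ∈ overB false := by
    show (vec (-2) 0 0) 0 ∈ Ioo (-3:ℝ) (-1); norm_num [vec]
  have pR : vec (7/2) 0 0 ∈ overB true := by
    show (vec (7/2) 0 0) 0 ∈ Ioo (3:ℝ) 4; norm_num [vec]
  have hu : IsPreconnected (univ : Set Mod) := by
    have h := IsPreconnected.union (s := eP .cyl '' domC ∪ eP (.core false) '' domP (.core false))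
      (t := eP (.core true) '' domP (.core true)) (eP .cyl (vec (7/2) 0 0))
      (.inl ⟨_, overB_subset _ pR, rfl⟩)
      ⟨_, trB_mem pR, (eP_glue pR).symm⟩
      (IsPreconnected.union (eP .cyl (vec (-2) 0 0)) ⟨_, overB_subset _ pL, rfl⟩
        ⟨_, trB_mem pL, (eP_glue pL).symm⟩ hC (hB false)) (hB true)
    convert h using 1
    symm
    refine eq_univ_of_forall fun x => ?_
    obtain ⟨κ, y, hy, rfl⟩ := eP_surj x
    rcases κ with _ | _ | _
    · exact .inl (.inl ⟨y, hy, rfl⟩)
    · exact .inl (.inr ⟨y, hy, rfl⟩)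
    · exact .inr ⟨y, hy, rfl⟩
  have : PreconnectedSpace Mod := ⟨hu⟩
  exact { toNonempty := inferInstance }

end Vale.Agent.P255.Glue
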