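import Vale.Agent.P255.Model.Coeff
import Vale.Agent.P255.Model.Topology

/-!
# P255 module C: the atlas of the example
-/

open scoped Manifold ContDiff Topology
open Set Filter

namespace Vale.Agent.P255.Glue

/-- the condition on the parametrisation chosen for the chart at a point -/
def IsRep (x : Mod) (κ : Piece) (y : E3) : Prop :=
  y ∈ domP κ ∧ eP κ y = x ∧ (κ = .cyl → y 0 ∈ Icc (-(5/2) : ℝ) (7/2)) ∧
    ((∃ y' ∈ domC, y' 0 ∈ Icc (-(5/2) : ℝ) (7/2) ∧ eP .cyl y' = x) → κ = .cyl)

theorem exists_isRep (x : Mod) : ∃ p : Piece × E3, IsRep x p.1 p.2 := by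
  by_cases h : ∃ y' ∈ domC, y' 0 ∈ Icc (-(5/2) : ℝ) (7/2) ∧ eP .cyl y' = x
  · obtain ⟨y, hy, h0, he⟩ := h
    exact ⟨(.cyl, y), hy, he, fun _ => h0, fun _ => rfl⟩
  · have hb : ∀ b z, z ∈ domP (.core b) → eP (.core b) z = x →
        ∃ p : Piece × E3, IsRep x p.1 p.2 := fun b z hz he =>
      ⟨(.core b, z), hz, he, fun e => (nomatch e), fun h' => (h h').elim⟩
    obtain ⟨κ, y, hy, he⟩ := eP_surj x
    rcases κ with _ | b
    · have h0 : y 0 ∉ Icc (-(5/2) : ℝ) (7/2) := fun h' => h ⟨y, hy, h', he⟩
      rw [mem_Icc, not_and_or, not_le, not_le] at h0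
      rcases h0 with h0 | h0
      · have ho : y ∈ overB false := ⟨hy.1, h0.trans (by norm_num)⟩
        exact hb _ _ (trB_mem ho) ((eP_glue ho).symm.trans he)
      · have ho : y ∈ overB true := ⟨lt_trans (by norm_num) h0, hy.2⟩
        exact hb _ _ (trB_mem ho) ((eP_glue ho).symm.trans he)
    · exact hb b y hy he

/-- the parametrisation chosen at a point -/
noncomputable def repK (x : Mod) : Piece := (exists_isRep x).choose.1

/-- the parameter chosen at a point -/
noncomputable def repY (x : Mod) : E3 := (exists_isRep x).choose.2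

theorem rep_spec (x : Mod) : IsRep x (repK x) (repY x) := (exists_isRep x).choose_spec

/-- the domain of the inverse of the chart at a point -/
noncomputable def chartDom (x : Mod) : Set E3 := Metric.ball (repY x) (1/3) ∩ domP (repK x)

theorem lat_small {κ : Piece} {w : E3} (hw : w ∈ latP κ) (h : ∀ i, |w i| < 1) : w = 0 := by
  have key : ∀ (a x : ℝ), (a = 0 ∨ 1 ≤ a) → |x| < 1 → (∃ i : ℤ, x = a * i) → x = 0 := by
    rintro a x (rfl | ha) hx ⟨i, rfl⟩
    · simp
    · by_contra hne
      have hi : i ≠ 0 := fun e => hne (by simp [e])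
      have : (1:ℝ) ≤ |(i:ℝ)| := by exact_mod_cast Int.one_le_abs hi
      rw [abs_mul, abs_of_pos (by linarith : (0:ℝ) < a)] at hx
      nlinarith
  have hl : ∀ b, 1 ≤ sideB b := fun b => by rw [sideB_eq]; linarith [rhoB_pos b]
  rcases κ with _ | b
  · obtain ⟨h0, h1, h2⟩ := hw
    ext i; fin_cases i
    · exact key _ _ (.inl rfl) (h 0) h0
    · exact key _ _ (.inr le_rfl) (h 1) h1
    · exact key _ _ (.inr le_rfl) (h 2) h2
  · obtain ⟨h0, h1, h2⟩ := hw
    ext i; fin_cases i
    · exact key _ _ (.inr (hl b)) (h 0) h0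
    · exact key _ _ (.inr (hl b)) (h 1) h1
    · exact key _ _ (.inr le_rfl) (h 2) h2

theorem injOn_chartDom (x : Mod) : InjOn (eP (repK x)) (chartDom x) := by
  intro u hu v hv h
  have hr := (eP_eq_iff hu.2 hv.2).1 h
  have hm : v - u ∈ latP (repK x) := by
    generalize repK x = κ at hr
    rcases κ with _ | b
    · exact hr
    · exact hr.2
  refine (sub_eq_zero.1 (lat_small hm fun i => ?_)).symm
  have h1 := Metric.mem_ball.1 hu.1
  have h2 := Metric.mem_ball.1 hv.1
  have h3 : ‖v - u‖ < 1 := by
    rw [← dist_eq_norm]; linarith [dist_triangle_right v u (repY x)]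
  exact lt_of_le_of_lt (by simpa using PiLp.norm_apply_le (v - u) i) h3

theorem isOpen_chartDom (x : Mod) : IsOpen (chartDom x) :=
  Metric.isOpen_ball.inter (isOpen_domP _)

theorem repY_mem (x : Mod) : repY x ∈ chartDom x :=
  ⟨Metric.mem_ball_self (by norm_num), (rep_spec x).1⟩

/-- the parametrisation near the chosen parameter, as an open partial homeomorphism -/
noncomputable def parHomeo (x : Mod) : OpenPartialHomeomorph E3 Mod :=
  OpenPartialHomeomorph.ofContinuousOpenRestrict ((injOn_chartDom x).toPartialEquiv _ _)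
    ((eP_continuousOn _).mono inter_subset_right)
    (by
      intro U hU
      have : (chartDom x).domRestrict (eP (repK x)) '' U =
          eP (repK x) '' (Subtype.val '' U) := by rw [image_image]; rfl
      show IsOpen ((chartDom x).domRestrict (eP (repK x)) '' U)
      rw [this]
      exact eP_image_open ((isOpen_chartDom x).isOpenMap_subtype_val U hU)
        ((Subtype.coe_image_subset _ _).trans inter_subset_right))
    (isOpen_chartDom x)

theorem parHomeo_apply (x : Mod) (y : E3) : parHomeo x y = eP (repK x) y := rfl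

theorem parHomeo_source (x : Mod) : (parHomeo x).source = chartDom x := rfl

theorem parHomeo_symm_self (x : Mod) : (parHomeo x).symm x = repY x := by
  conv_lhs => arg 2; rw [← (rep_spec x).2.1, ← parHomeo_apply]
  exact (parHomeo x).left_inv (repY_mem x)

noncomputable instance : ChartedSpace E3 Mod where
  atlas := range fun x => (parHomeo x).symm
  chartAt x := (parHomeo x).symm
  mem_chart_source x := by
    rw [OpenPartialHomeomorph.symm_source]
    have := (parHomeo x).map_source (repY_mem x)
    rwa [parHomeo_apply, (rep_spec x).2.1] at this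
  chart_mem_atlas x := mem_range_self x

/-- Where the parametrisations at two points meet, one factors through the other. -/
theorem parHomeo_link {x x' : Mod} {y : E3} (hy : y ∈ (parHomeo x).source)
    (hy' : parHomeo x y ∈ (parHomeo x').target) :
    ∃ F : E3 → E3, ContDiffAt ℝ ∞ F y ∧
      (parHomeo x').symm ∘ parHomeo x =ᶠ[𝓝 y] F ∧
      gP (repK x) y = (gP (repK x') ((parHomeo x').symm (parHomeo x y))).bilinearComp
        (fderiv ℝ F y) (fderiv ℝ F y) := by
  have hy1 : (parHomeo x').symm (parHomeo x y) ∈ chartDom x' :=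
    (parHomeo x').map_target hy'
  set y' := (parHomeo x').symm (parHomeo x y) with hy'def
  have he : eP (repK x) y = eP (repK x') y' := ((parHomeo x').right_inv hy').symm
  obtain ⟨F, hF, hFy, hev, hG⟩ := exists_link hy.2 hy1.2 he
  refine ⟨F, hF, ?_, hG⟩
  have h2 : ∀ᶠ w in 𝓝 y, F w ∈ chartDom x' :=
    hF.continuousAt.preimage_mem_nhds (by rw [hFy]; exact (isOpen_chartDom x').mem_nhds hy1)
  filter_upwards [hev, h2] with w hw hw'
  show (parHomeo x').symm (parHomeo x w) = F w
  rw [parHomeo_apply, ← hw.2.2, ← parHomeo_apply]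
  exact (parHomeo x').left_inv hw'

instance : IsManifold (𝓡 3) ∞ Mod := by
  refine isManifold_of_contDiffOn _ _ _ ?_
  rintro _ _ ⟨x, rfl⟩ ⟨x', rfl⟩
  simp only [modelWithCornersSelf_coe, modelWithCornersSelf_coe_symm, Function.id_comp,
    Function.comp_id, range_id, inter_univ, preimage_id]
  intro y hy
  obtain ⟨F, hF, heq, -⟩ := parHomeo_link (x := x) (x' := x') hy.1 hy.2
  exact (hF.congr_of_eventuallyEq heq).contDiffWithinAt

theorem extChartAt_target_eq (x : Mod) : (extChartAt (𝓡 3) x).target = chartDom x := by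
  simp [extChartAt, chartAt, ChartedSpace.chartAt, parHomeo_source]

theorem extChartAt_symm_eq (x : Mod) : ⇑(extChartAt (𝓡 3) x).symm = eP (repK x) := by
  ext y; simp [extChartAt, chartAt, ChartedSpace.chartAt, parHomeo_apply]

theorem extChartAt_coe_eq (x : Mod) : ⇑(extChartAt (𝓡 3) x) = (parHomeo x).symm := by
  ext y; simp [extChartAt, chartAt, ChartedSpace.chartAt]

theorem extChartAt_center (x : Mod) : extChartAt (𝓡 3) x x = repY x := by
  rw [extChartAt_coe_eq, parHomeo_symm_self]

theorem coeff_compat (x x' : Mod) :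
    ∀ p ∈ (extChartAt (𝓡 3) x).source ∩ (extChartAt (𝓡 3) x').source,
      gP (repK x) (extChartAt (𝓡 3) x p) =
        (gP (repK x') (extChartAt (𝓡 3) x' p)).bilinearComp
          (fderiv ℝ (extChartAt (𝓡 3) x' ∘ (extChartAt (𝓡 3) x).symm) (extChartAt (𝓡 3) x p))
          (fderiv ℝ (extChartAt (𝓡 3) x' ∘ (extChartAt (𝓡 3) x).symm) (extChartAt (𝓡 3) x p)) := by
  rintro p ⟨hp, hp'⟩
  rw [extChartAt_source] at hp hp'
  change p ∈ (parHomeo x).target at hp
  change p ∈ (parHomeo x').target at hp'
  have hs : ⇑(extChartAt (𝓡 3) x).symm = ⇑(parHomeo x) := extChartAt_symm_eq x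
  rw [extChartAt_coe_eq, extChartAt_coe_eq, hs]
  have hy := (parHomeo x).map_target hp
  have he := (parHomeo x).right_inv hp
  obtain ⟨F, -, heq, hG⟩ := parHomeo_link (x := x) (x' := x') hy (by rwa [he])
  rw [he] at hG
  rw [heq.fderiv_eq]
  exact hG

end Vale.Agent.P255.Glue
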