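import Vale.Agent.P255.Model.Space

/-!
# P255 module C: the coefficients of the metric and the local comparison of two parametrisations
-/

open scoped ContDiff Topology
open Set Filter

namespace Vale.Agent.P255.Glue

/-- the metric in a parametrisation -/
noncomputable def gP : Piece → E3 → Form 3
  | .cyl => gC
  | .core false => gL
  | .core true => gR

theorem formOf_apply (A : Fin 3 → Fin 3 → ℝ) (a b : E3) :
    formOf A a b = ∑ i, ∑ j, A i j * (a i * b j) := by
  simp [formOf]

theorem contDiff_coord0 : ContDiff ℝ ∞ fun y : E3 => y 0 :=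
  (EuclideanSpace.proj (𝕜 := ℝ) (0 : Fin 3)).contDiff

theorem contDiffOn_radial {f : ℝ → ℝ} (hf : ContDiffOn ℝ ∞ f cylI) :
    ContDiffOn ℝ ∞ (fun y : E3 => f (y 0)) domC :=
  hf.comp contDiff_coord0.contDiffOn fun _ hy => hy

theorem gCm_smooth (i j : Fin 3) : ContDiffOn ℝ ∞ (fun r => gCm r i j) cylI := by
  have hD : ContDiffOn ℝ ∞ qD cylI := (qA_smooth.mul qG_smooth).sub (qM_smooth.pow 2)
  have hne : ∀ r ∈ cylI, qD r ≠ 0 := fun r hr => (qD_pos hr).ne'
  have h11 : ContDiffOn ℝ ∞ (fun r => qG r / qD r) cylI := qG_smooth.div hD hne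
  have h22 : ContDiffOn ℝ ∞ (fun r => qA r / qD r) cylI := qA_smooth.div hD hne
  have h12 : ContDiffOn ℝ ∞ (fun r => -(qM r) / qD r) cylI := qM_smooth.neg.div hD hne
  fin_cases i <;> fin_cases j <;>
    simp only [gCm, Fin.zero_eta, Fin.mk_one, Fin.reduceFinMk, Matrix.cons_val_zero,
      Matrix.cons_val_one, Matrix.cons_val]
  all_goals first
    | with_reducible exact h11
    | with_reducible exact h22
    | with_reducible exact h12
    | exact contDiffOn_const

theorem formOf_smooth {s : Set E3} {A : E3 → Fin 3 → Fin 3 → ℝ}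
    (hA : ∀ i j, ContDiffOn ℝ ∞ (fun y => A y i j) s) :
    ContDiffOn ℝ ∞ (fun y => formOf (A y)) s := by
  rw [contDiffOn_clm_apply]
  intro u
  rw [contDiffOn_clm_apply]
  intro v
  simp only [formOf_apply]
  exact ContDiffOn.sum fun i _ => ContDiffOn.sum fun j _ => (hA i j).mul contDiffOn_const

theorem gC_smooth : ContDiffOn ℝ ∞ gC domC :=
  formOf_smooth (A := fun y => gCm (y 0))
    fun i j => contDiffOn_radial (f := fun r => gCm r i j) (gCm_smooth i j)

theorem gP_smooth : ∀ κ, ContDiffOn ℝ ∞ (gP κ) (domP κ)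
  | .core false => contDiffOn_const
  | .core true => contDiffOn_const
  | .cyl => gC_smooth

theorem gP_symm (κ : Piece) (y a b : E3) : gP κ y a b = gP κ y b a := by
  rcases κ with _ | _ | _ <;>
    simp [gP, gC, gL, gR, gCm, formOf_apply, Fin.sum_univ_three] <;> ring

theorem fibR_pos : 0 < fibR :=
  one_div_pos.2 (Real.sqrt_pos.2 (qA_pos ⟨by norm_num, by norm_num⟩))

theorem gP_pos {κ : Piece} {y : E3} (hy : y ∈ domP κ) {a : E3} (ha : a ≠ 0) :
    0 < gP κ y a a := by
  have ha' : a 0 ≠ 0 ∨ a 1 ≠ 0 ∨ a 2 ≠ 0 := by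
    by_contra h
    push Not at h
    exact ha (by ext i; fin_cases i <;> simp [h.1, h.2.1, h.2.2])
  rcases κ with _ | _ | _
  · have hD := qD_pos (r := y 0) hy
    have hA := qA_pos (r := y 0) hy
    have e : gP .cyl y a a = a 0 ^ 2 + (qG (y 0) * a 1 ^ 2 - 2 * qM (y 0) * a 1 * a 2 +
        qA (y 0) * a 2 ^ 2) / qD (y 0) := by
      simp [gP, gC, gCm, formOf_apply, Fin.sum_univ_three]
      field_simp
      ring
    have e2 : qA (y 0) * (qG (y 0) * a 1 ^ 2 - 2 * qM (y 0) * a 1 * a 2 + qA (y 0) * a 2 ^ 2) =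
        qD (y 0) * a 1 ^ 2 + (qA (y 0) * a 2 - qM (y 0) * a 1) ^ 2 := by
      rw [qD]; ring
    set X := qG (y 0) * a 1 ^ 2 - 2 * qM (y 0) * a 1 * a 2 + qA (y 0) * a 2 ^ 2 with hX
    have hX0 : 0 ≤ X := by nlinarith [mul_nonneg hD.le (sq_nonneg (a 1))]
    rw [e]
    rcases ha' with h | h | h
    · have := sq_pos_of_ne_zero h; positivity
    · have : 0 < qA (y 0) * X := by
        rw [e2]; nlinarith [mul_pos hD (sq_pos_of_ne_zero h)]
      have : 0 < X := pos_of_mul_pos_right this hA.le
      positivity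
    · rcases eq_or_ne (a 1) 0 with h1 | h1
      · have : X = qA (y 0) * a 2 ^ 2 := by rw [hX, h1]; ring
        have := sq_pos_of_ne_zero h
        have : 0 < X := by rw [‹X = _›]; positivity
        positivity
      · have : 0 < qA (y 0) * X := by
          rw [e2]; nlinarith [mul_pos hD (sq_pos_of_ne_zero h1)]
        have : 0 < X := pos_of_mul_pos_right this hA.le
        positivity
  · simp [gP, gL, formOf_apply, Fin.sum_univ_three]
    rcases ha' with h | h | h <;> have := mul_self_pos.2 h <;>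
      nlinarith [mul_self_nonneg (a 0), mul_self_nonneg (a 1), mul_self_nonneg (a 2)]
  · simp [gP, gR, formOf_apply, Fin.sum_univ_three]
    have h2 : 0 < fibR ^ 2 := pow_pos fibR_pos 2
    rcases ha' with h | h | h <;> have := mul_self_pos.2 h <;>
      nlinarith [mul_self_nonneg (a 0), mul_self_nonneg (a 1), mul_self_nonneg (a 2),
        mul_nonneg h2.le (mul_self_nonneg (a 2))]

theorem pullback_B : ∀ {b : Bool} {y : E3}, y ∈ overB b → ∀ z, gP .cyl y =
    (gP (.core b) z).bilinearComp (fderiv ℝ (trB b) y) (fderiv ℝ (trB b) y)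
  | false, _, h, _ => gC_eq_pullback_L h
  | true, _, h, _ => gC_eq_pullback_R h

theorem gP_translate {κ : Piece} {y w : E3} (hw : w ∈ latP κ) : gP κ (y + w) = gP κ y := by
  rcases κ with _ | _ | _
  · simp [gP, gC, coord0_of_latC hw]
  · rfl
  · rfl

/-- Where two parametrisations meet, one factors through the other by a smooth map respecting
the metric coefficients. -/
theorem exists_link {κ κ' : Piece} {y y' : E3} (hy : y ∈ domP κ) (hy' : y' ∈ domP κ')
    (he : eP κ y = eP κ' y') : ∃ F : E3 → E3, ContDiffAt ℝ ∞ F y ∧ F y = y' ∧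
      (∀ᶠ w in 𝓝 y, w ∈ domP κ ∧ F w ∈ domP κ' ∧ eP κ' (F w) = eP κ w) ∧
      gP κ y = (gP κ' y').bilinearComp (fderiv ℝ F y) (fderiv ℝ F y) := by
  have hrel := (eP_eq_iff hy hy').1 he
  have hdom := (isOpen_domP κ).mem_nhds hy
  have finish : ∀ F : E3 → E3, ContDiffAt ℝ ∞ F y → F y = y' →
      (∀ᶠ w in 𝓝 y, RelP κ κ' w (F w)) →
      gP κ y = (gP κ' y').bilinearComp (fderiv ℝ F y) (fderiv ℝ F y) → ∃ F : E3 → E3,
      ContDiffAt ℝ ∞ F y ∧ F y = y' ∧
      (∀ᶠ w in 𝓝 y, w ∈ domP κ ∧ F w ∈ domP κ' ∧ eP κ' (F w) = eP κ w) ∧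
      gP κ y = (gP κ' y').bilinearComp (fderiv ℝ F y) (fderiv ℝ F y) := by
    intro F hF hFy hR hG
    refine ⟨F, hF, hFy, ?_, hG⟩
    have h2 : ∀ᶠ w in 𝓝 y, F w ∈ domP κ' :=
      hF.continuousAt.preimage_mem_nhds (by rw [hFy]; exact (isOpen_domP κ').mem_nhds hy')
    filter_upwards [hdom, h2, hR] with w hw hw' hr
    exact ⟨hw, hw', (eP_eq_iff hw' hw).2 (relP_symm hr)⟩
  have hshift : ∀ c : E3, fderiv ℝ (fun w => w + c) y = ContinuousLinearMap.id ℝ E3 :=
    fun c => by rw [fderiv_add_const]; exact fderiv_fun_id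
  rcases κ with _ | b <;> rcases κ' with _ | b'
  · refine finish (fun w => w + (y' - y)) (contDiffAt_id.add contDiffAt_const) (by abel)
      (Eventually.of_forall fun w => by simpa [RelP] using hrel) ?_
    rw [hshift, show y' = y + (y' - y) by abel, gP_translate (κ := .cyl) hrel]
    ext; simp
  · obtain ⟨ho, hm⟩ := hrel
    refine finish (fun w => trB b' w + (y' - trB b' y))
      ((trB_contDiffAt hy).add contDiffAt_const) (by abel) ?_ ?_
    · filter_upwards [(isOpen_overB b').mem_nhds ho] with w hw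
      exact ⟨hw, by simpa using hm⟩
    · rw [fderiv_add_const]
      exact pullback_B ho y'
  · obtain ⟨ho, hm⟩ := hrel
    set c := y - trB b y' with hc
    set T := fun w => trB b w + c with hT
    have hTc : ContDiffAt ℝ ∞ T y' := (trB_contDiffAt hy').add contDiffAt_const
    have hd : fderiv ℝ T y' = fderiv ℝ (trB b) y' := fderiv_add_const c
    set A : E3 ≃L[ℝ] E3 := ContinuousLinearEquiv.ofBijective (fderiv ℝ (trB b) y')
      (LinearMap.ker_eq_bot.2 (trB_bijective ho).1)
      (LinearMap.range_eq_top.2 (trB_bijective ho).2) with hA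
    have hA' : (A : E3 →L[ℝ] E3) = fderiv ℝ (trB b) y' := by ext; simp [hA]
    have hTd : HasFDerivAt T (A : E3 →L[ℝ] E3) y' := by
      rw [hA', ← hd]; exact (hTc.differentiableAt (by simp)).hasFDerivAt
    have hTy : T y' = y := by simp [hT, hc]
    have hs := hTc.hasStrictFDerivAt' hTd (by simp)
    set F := hs.localInverse T A y' with hF
    have hFy : F y = y' := by
      have := hs.localInverse_apply_image; rwa [hTy] at this
    have hFd : HasStrictFDerivAt F (A.symm : E3 →L[ℝ] E3) y := by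
      have := hs.to_localInverse; rwa [hTy] at this
    have hFc : ContDiffAt ℝ ∞ F y := by
      have := hTc.to_localInverse hTd (by simp); rwa [hTy] at this
    refine finish F hFc hFy ?_ ?_
    · have h1 : ∀ᶠ w in 𝓝 y, T (F w) = w := by
        have := hs.eventually_right_inverse; rwa [hTy] at this
      have h2 : ∀ᶠ w in 𝓝 y, F w ∈ overB b := hFc.continuousAt.preimage_mem_nhds
        (by rw [hFy]; exact (isOpen_overB b).mem_nhds ho)
      filter_upwards [h1, h2] with w hw hwo
      refine ⟨hwo, ?_⟩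
      have : w - trB b (F w) = c := by nth_rw 1 [← hw]; simp [hT]
      rw [this]; exact hm
    · rw [hFd.hasFDerivAt.fderiv, pullback_B ho y, ← hA']
      ext u v; simp
  · obtain ⟨rfl, hm⟩ := hrel
    refine finish (fun w => w + (y' - y)) (contDiffAt_id.add contDiffAt_const) (by abel)
      (Eventually.of_forall fun w => ⟨rfl, by simpa using hm⟩) ?_
    rw [hshift, show y' = y + (y' - y) by abel, gP_translate hm]
    ext; simp

end Vale.Agent.P255.Glue
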