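import Vale.Agent.P255.Model.Transition

/-!
# P255 module C: the space of the example

The cylinder and the two cores, glued along the collars, as a quotient of their disjoint union.
-/

open scoped ContDiff Topology
open Set

namespace Vale.Agent.P255.Glue

/-- the three parametrisations -/
inductive Piece
  | cyl
  | core (right : Bool)

/-- side of a torus -/
noncomputable def sideB : Bool → ℝ
  | false => lamL
  | true => lamR

/-- radius of a disc -/
noncomputable def rhoB : Bool → ℝ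
  | false => rhoL
  | true => rhoR

/-- transition from the cylinder to a core -/
noncomputable def trB : Bool → E3 → E3
  | false => toL
  | true => toR

/-- the part of the cylinder glued to a core -/
def overB : Bool → Set E3
  | false => overL
  | true => overR

/-- the closure of `overB` within the cylinder -/
def clB : Bool → Set E3
  | false => {y | y 0 ≤ -1}
  | true => {y | 3 ≤ y 0}

/-- the lattice with the given sides -/
def latAB (a b c : ℝ) : AddSubgroup E3 where
  carrier := {w | (∃ i : ℤ, w 0 = a * i) ∧ (∃ j : ℤ, w 1 = b * j) ∧ ∃ k : ℤ, w 2 = c * k}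
  zero_mem' := ⟨⟨0, by simp⟩, ⟨0, by simp⟩, ⟨0, by simp⟩⟩
  add_mem' := by
    rintro v w ⟨⟨i, hi⟩, ⟨j, hj⟩, ⟨k, hk⟩⟩ ⟨⟨i', hi'⟩, ⟨j', hj'⟩, ⟨k', hk'⟩⟩
    exact ⟨⟨i + i', by simp [hi, hi']; ring⟩, ⟨j + j', by simp [hj, hj']; ring⟩,
      ⟨k + k', by simp [hk, hk']; ring⟩⟩
  neg_mem' := by
    rintro v ⟨⟨i, hi⟩, ⟨j, hj⟩, ⟨k, hk⟩⟩
    exact ⟨⟨-i, by simp [hi]⟩, ⟨-j, by simp [hj]⟩, ⟨-k, by simp [hk]⟩⟩

/-- the periods of a parametrisation -/
noncomputable def latP : Piece → AddSubgroup E3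
  | .cyl => latAB 0 1 1
  | .core b => latAB (sideB b) (sideB b) 1

/-- the domain of a parametrisation -/
def domP : Piece → Set E3
  | .cyl => domC
  | .core b => domCore (sideB b) (rhoB b)

theorem mem_latC {w : E3} : w ∈ latP .cyl ↔ ∃ i j, w = perC i j := by
  constructor
  · rintro ⟨⟨i, hi⟩, ⟨j, hj⟩, ⟨k, hk⟩⟩
    refine ⟨j, k, ?_⟩
    ext n; fin_cases n <;> simp_all [perC, vec]
  · rintro ⟨i, j, rfl⟩
    exact ⟨⟨0, by simp [perC, vec]⟩, ⟨i, by simp [perC, vec]⟩, ⟨j, by simp [perC, vec]⟩⟩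

theorem mem_latB {b : Bool} {w : E3} :
    w ∈ latP (.core b) ↔ ∃ i j k, w = perCore (sideB b) i j k := by
  constructor
  · rintro ⟨⟨i, hi⟩, ⟨j, hj⟩, ⟨k, hk⟩⟩
    refine ⟨i, j, k, ?_⟩
    ext n; fin_cases n <;> simp_all [perCore, vec]
  · rintro ⟨i, j, k, rfl⟩
    exact ⟨⟨i, by simp [perCore, vec]⟩, ⟨j, by simp [perCore, vec]⟩,
      ⟨k, by simp [perCore, vec]⟩⟩

theorem continuous_coord (i : Fin 3) : Continuous fun y : E3 => y i := PiLp.continuous_apply 2 _ i

theorem isClosed_latP (κ : Piece) : IsClosed (latP κ : Set E3) := by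
  have h : ∀ a b c : ℝ, IsClosed (latAB a b c : Set E3) := by
    intro a b c
    have hr : ∀ a : ℝ, IsClosed {x : ℝ | ∃ i : ℤ, x = a * i} := by
      intro a
      rcases eq_or_ne a 0 with rfl | ha
      · have : {x : ℝ | ∃ i : ℤ, x = (0:ℝ) * i} = {0} := by ext x; simp
        rw [this]; exact isClosed_singleton
      · have : {x : ℝ | ∃ i : ℤ, x = a * i} =
            Homeomorph.mulLeft₀ a ha '' range ((↑) : ℤ → ℝ) := by
          ext x; simp [eq_comm]
        rw [this]
        exact (Homeomorph.isClosed_image _).2 Int.isClosedEmbedding_coe_real.isClosed_range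
    exact ((hr a).preimage (continuous_coord 0)).inter
      (((hr b).preimage (continuous_coord 1)).inter ((hr c).preimage (continuous_coord 2)))
  cases κ <;> exact h _ _ _

theorem rhoB_pos : ∀ b, 0 < rhoB b
  | false => rhoL_pos
  | true => rhoR_pos

theorem sideB_eq : ∀ b, sideB b = 4 * (rhoB b + 2)
  | false => rfl
  | true => rfl

theorem sideB_pos (b : Bool) : 0 < sideB b := by
  have := rhoB_pos b; rw [sideB_eq]; positivity

theorem isOpen_domC : IsOpen domC := isOpen_Ioo.preimage (continuous_coord 0)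

theorem isOpen_domP : ∀ κ, IsOpen (domP κ)
  | .cyl => isOpen_domC
  | .core b => isOpen_domCore _ _ (sideB_pos b)

theorem isOpen_overB : ∀ b, IsOpen (overB b)
  | false => isOpen_Ioo.preimage (continuous_coord 0)
  | true => isOpen_Ioo.preimage (continuous_coord 0)

theorem overB_subset : ∀ b, overB b ⊆ domC
  | false => fun _ hy => ⟨hy.1, hy.2.trans (by norm_num)⟩
  | true => fun _ hy => ⟨lt_trans (by norm_num) hy.1, hy.2⟩

theorem overB_unique {b b' : Bool} {y : E3} (h : y ∈ overB b) (h' : y ∈ overB b') : b = b' := by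
  cases b <;> cases b' <;> simp only [overB, overL, overR, mem_ofPred_eq, mem_Ioo] at h h' <;>
    first
    | rfl
    | (exfalso; linarith [h.1, h.2, h'.1, h'.2])

theorem coord0_of_latC {w : E3} (h : w ∈ latP .cyl) : w 0 = 0 := by
  obtain ⟨i, hi⟩ := h.1
  simpa using hi

theorem overB_congr {b : Bool} {y y' : E3} (h : y' - y ∈ latP .cyl) :
    y' ∈ overB b ↔ y ∈ overB b := by
  have h0 : y' 0 = y 0 := by
    have := coord0_of_latC h; simp at this; linarith
  cases b <;> simp [overB, overL, overR, h0]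

theorem trB_eq_iff {b : Bool} {y y' : E3} (hy : y ∈ overB b) (hy' : y' ∈ overB b) :
    trB b y' - trB b y ∈ latP (.core b) ↔ y' - y ∈ latP .cyl := by
  rw [mem_latB, mem_latC]
  simp only [sub_eq_iff_eq_add']
  cases b
  · exact toL_eq_iff hy hy'
  · exact toR_eq_iff hy hy'

theorem trB_mem : ∀ {b : Bool} {y : E3}, y ∈ overB b → trB b y ∈ domP (.core b)
  | false, _, hy => toL_mem hy
  | true, _, hy => toR_mem hy

theorem trB_contDiffAt : ∀ {b : Bool} {y : E3}, y ∈ domC → ContDiffAt ℝ ∞ (trB b) y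
  | false, _, hy => toL_contDiffAt hy
  | true, _, hy => toR_contDiffAt hy

theorem trB_bijective : ∀ {b : Bool} {y : E3}, y ∈ overB b →
    Function.Bijective (fderiv ℝ (trB b) y)
  | false, _, hy => toL_bijective hy
  | true, _, hy => toR_bijective hy

theorem trB_continuousOn (b : Bool) : ContinuousOn (trB b) domC := fun _ hy =>
  (trB_contDiffAt hy).continuousAt.continuousWithinAt

theorem trB_image_open {b : Bool} {s : Set E3} (hs : IsOpen s) (hso : s ⊆ overB b) :
    IsOpen (trB b '' s) := by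
  refine isOpen_iff_mem_nhds.2 ?_
  rintro _ ⟨y, hy, rfl⟩
  have hF : HasStrictFDerivAt (trB b) (fderiv ℝ (trB b) y) y :=
    (trB_contDiffAt (overB_subset b (hso hy))).hasStrictFDerivAt (by simp)
  rw [← hF.map_nhds_eq_of_surj (LinearMap.range_eq_top.2 (trB_bijective (hso hy)).2)]
  exact Filter.image_mem_map (hs.mem_nhds hy)

/-- gluing of the cylinder to a core -/
def glue (b : Bool) (y z : E3) : Prop := y ∈ overB b ∧ z - trB b y ∈ latP (.core b)

/-- the gluing relation -/
def RelP : Piece → Piece → E3 → E3 → Prop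
  | .cyl, .cyl, y, y' => y' - y ∈ latP .cyl
  | .cyl, .core b, y, z => glue b y z
  | .core b, .cyl, z, y => glue b y z
  | .core b, .core b', z, z' => b = b' ∧ z' - z ∈ latP (.core b)

theorem relP_refl : ∀ κ y, RelP κ κ y y
  | .cyl, y => by simp [RelP]
  | .core b, y => by simp [RelP]

theorem relP_symm : ∀ {κ κ' : Piece} {y y' : E3}, RelP κ κ' y y' → RelP κ' κ y' y
  | .cyl, .cyl, y, y', h => by simpa [RelP] using (latP .cyl).neg_mem h
  | .cyl, .core _, _, _, h => h
  | .core _, .cyl, _, _, h => h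
  | .core b, .core b', y, y', ⟨e, h⟩ => by
      subst e; exact ⟨rfl, by simpa using (latP (.core b)).neg_mem h⟩

theorem relP_trans : ∀ {κ κ' κ'' : Piece} {y y' y'' : E3},
    RelP κ κ' y y' → RelP κ' κ'' y' y'' → RelP κ κ'' y y'' := by
  intro κ κ' κ'' y y' y'' h h'
  cases κ <;> cases κ' <;> cases κ'' <;> simp only [RelP, glue] at h h' ⊢
  case cyl.cyl.cyl => simpa using (latP .cyl).add_mem h' h
  case cyl.cyl.core b =>
    obtain ⟨ho, hm⟩ := h'
    have hy := (overB_congr h).1 ho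
    exact ⟨hy, by simpa using (latP (.core b)).add_mem hm ((trB_eq_iff hy ho).2 h)⟩
  case cyl.core.cyl b =>
    obtain ⟨hy, hm⟩ := h
    obtain ⟨hy'', hm''⟩ := h'
    exact (trB_eq_iff hy hy'').1 (by simpa using (latP (.core b)).sub_mem hm hm'')
  case cyl.core.core b b' =>
    obtain ⟨hy, hm⟩ := h
    obtain ⟨rfl, hm'⟩ := h'
    exact ⟨hy, by simpa using (latP (.core b)).add_mem hm' hm⟩
  case core.cyl.cyl b =>
    obtain ⟨hy, hm⟩ := h
    have hy'' := (overB_congr h').2 hy
    exact ⟨hy'', by simpa using (latP (.core b)).sub_mem hm ((trB_eq_iff hy hy'').2 h')⟩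
  case core.cyl.core b b' =>
    obtain ⟨hy, hm⟩ := h
    obtain ⟨hy', hm'⟩ := h'
    obtain rfl := overB_unique hy hy'
    exact ⟨rfl, by simpa using (latP (.core b)).sub_mem hm' hm⟩
  case core.core.cyl b b' =>
    obtain ⟨rfl, hm⟩ := h
    obtain ⟨hy, hm'⟩ := h'
    exact ⟨hy, by simpa using (latP (.core b)).sub_mem hm' hm⟩
  case core.core.core b b' b'' =>
    obtain ⟨rfl, hm⟩ := h
    obtain ⟨rfl, hm'⟩ := h'
    exact ⟨rfl, by simpa using (latP (.core b)).add_mem hm' hm⟩

/-- the disjoint union of the three domains -/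
abbrev PreModel := Σ κ : Piece, ↥(domP κ)

/-- the gluing -/
instance glueSetoid : Setoid PreModel where
  r p q := RelP p.1 q.1 p.2.1 q.2.1
  iseqv := ⟨fun _ => relP_refl _ _, relP_symm, relP_trans⟩

/-- the space -/
abbrev Mod := Quotient glueSetoid

/-- the class of a point -/
noncomputable def piP : PreModel → Mod := Quotient.mk glueSetoid

instance : Nonempty Mod :=
  ⟨piP ⟨.cyl, ⟨0, show (0:E3) 0 ∈ Ioo (-3:ℝ) 4 by norm_num⟩⟩⟩

open Classical in
/-- the parametrisations -/
noncomputable def eP (κ : Piece) (y : E3) : Mod :=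
  if h : y ∈ domP κ then piP ⟨κ, ⟨y, h⟩⟩ else Classical.arbitrary _

theorem eP_mem {κ : Piece} {y : E3} (h : y ∈ domP κ) : eP κ y = piP ⟨κ, ⟨y, h⟩⟩ := dif_pos h

theorem eP_eq_iff {κ κ' : Piece} {y y' : E3} (h : y ∈ domP κ) (h' : y' ∈ domP κ') :
    eP κ y = eP κ' y' ↔ RelP κ κ' y y' := by
  rw [eP_mem h, eP_mem h']
  exact Quotient.eq

theorem eP_surj (x : Mod) : ∃ κ, ∃ y ∈ domP κ, eP κ y = x := by
  obtain ⟨⟨κ, y, hy⟩, rfl⟩ := Quotient.exists_rep x
  exact ⟨κ, y, hy, eP_mem hy⟩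

theorem eP_continuousOn (κ : Piece) : ContinuousOn (eP κ) (domP κ) := by
  rw [continuousOn_iff_continuous_domRestrict]
  have : (domP κ).domRestrict (eP κ) = fun y => piP ⟨κ, y⟩ := funext fun y => eP_mem y.2
  rw [this]
  exact continuous_quotient_mk'.comp continuous_sigmaMk

theorem isOpen_sat : ∀ (κ κ' : Piece) {V : Set E3}, IsOpen V →
    IsOpen {y' | ∃ y ∈ V, RelP κ κ' y y'} := by
  intro κ κ' V hV
  have hT : ∀ κ : Piece, ∀ U : Set E3, IsOpen U →
      IsOpen {y' | ∃ y ∈ U, y' - y ∈ latP κ} := by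
    intro κ U hU
    have : {y' | ∃ y ∈ U, y' - y ∈ latP κ} = ⋃ w ∈ latP κ, (fun x => x - w) ⁻¹' U := by
      ext x
      simp only [mem_ofPred_eq, mem_iUnion, mem_preimage]
      exact ⟨fun ⟨y, hy, hm⟩ => ⟨x - y, hm, by simpa using hy⟩,
        fun ⟨w, hw, hm⟩ => ⟨x - w, hm, by simpa using hw⟩⟩
    rw [this]
    exact isOpen_biUnion fun w _ => hU.preimage (continuous_id.sub continuous_const)
  cases κ <;> cases κ' <;> simp only [RelP, glue]
  case cyl.cyl => exact hT _ V hV
  case cyl.core b =>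
    have : {z | ∃ y ∈ V, y ∈ overB b ∧ z - trB b y ∈ latP (.core b)} =
        {z | ∃ x ∈ trB b '' (V ∩ overB b), z - x ∈ latP (.core b)} := by
      ext z; simp [and_assoc]
    rw [this]
    exact hT _ _ (trB_image_open (hV.inter (isOpen_overB b)) inter_subset_right)
  case core.cyl b =>
    have : {y | ∃ z ∈ V, y ∈ overB b ∧ z - trB b y ∈ latP (.core b)} =
        overB b ∩ trB b ⁻¹' {x | ∃ z ∈ V, x - z ∈ latP (.core b)} := by
      ext y
      simp only [mem_ofPred_eq, mem_inter_iff, mem_preimage]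
      exact ⟨fun ⟨z, hz, ho, hm⟩ => ⟨ho, z, hz, by simpa using (latP (.core b)).neg_mem hm⟩,
        fun ⟨ho, z, hz, hm⟩ => ⟨z, hz, ho, by simpa using (latP (.core b)).neg_mem hm⟩⟩
    rw [this]
    exact ((trB_continuousOn b).mono (overB_subset b)).isOpen_inter_preimage (isOpen_overB b)
      (hT _ _ hV)
  case core.core b b' =>
    by_cases e : b = b'
    · simpa [e] using hT (.core b) V hV
    · simp [e]

theorem eP_image_open {κ : Piece} {V : Set E3} (hV : IsOpen V) (hVd : V ⊆ domP κ) :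
    IsOpen (eP κ '' V) := by
  rw [isQuotientMap_quotient_mk'.isOpen_preimage.symm, isOpen_sigma_iff]
  intro κ'
  have : Sigma.mk κ' ⁻¹' (Quotient.mk' ⁻¹' (eP κ '' V)) =
      Subtype.val ⁻¹' {y' | ∃ y ∈ V, RelP κ κ' y y'} := by
    ext ⟨y', hy'⟩
    simp only [mem_preimage, mem_image, mem_ofPred_eq]
    refine exists_congr fun y => and_congr_right fun hy => ?_
    rw [← eP_eq_iff (hVd hy) hy', eP_mem hy']
    rfl
  rw [this]
  exact (isOpen_sat κ κ' hV).preimage continuous_subtype_val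

theorem isOpenQuotientMap_piP : IsOpenQuotientMap piP := by
  refine ⟨Quotient.mk_surjective, continuous_quotient_mk', fun U hU => ?_⟩
  have : piP '' U = ⋃ κ, eP κ '' (Subtype.val '' ((fun y : ↥(domP κ) => (⟨κ, y⟩ : PreModel)) ⁻¹' U)) := by
    ext x
    simp only [mem_image, mem_iUnion, mem_preimage]
    constructor
    · rintro ⟨⟨κ, y⟩, hy, rfl⟩
      exact ⟨κ, y, ⟨y, hy, rfl⟩, eP_mem y.2⟩
    · rintro ⟨κ, _, ⟨y, hy, rfl⟩, rfl⟩
      exact ⟨⟨κ, y⟩, hy, (eP_mem y.2).symm⟩
  rw [this]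
  refine isOpen_iUnion fun κ => eP_image_open ?_ (Subtype.coe_image_subset _ _)
  exact (isOpen_domP κ).isOpenMap_subtype_val _ (isOpen_sigma_iff.1 hU κ)

end Vale.Agent.P255.Glue
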