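import Vale.Agent.P255.Model.Spec
import Vale.Agent.P255.Profile.Basic
import Vale.Agent.P255.Cylinder.Curvature

/-!
# P255 module C3: the two transition maps of the example

Both maps are polar coordinates: radius `w r / (2π)`, an angle and a fibre coordinate which are
linear in `(v,u)`.
-/

open scoped ContDiff
open Set

namespace Vale.Agent.P255

/-- the part of the cylinder glued to the left core -/
def overL : Set E3 := {y | y 0 ∈ Ioo (-3 : ℝ) (-1)}
/-- the part of the cylinder glued to the right core -/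
def overR : Set E3 := {y | y 0 ∈ Ioo (3 : ℝ) 4}

theorem overL_domC {y : E3} (hy : y ∈ overL) : y ∈ domC :=
  ⟨hy.1, lt_trans hy.2 (by norm_num)⟩

theorem overR_domC {y : E3} (hy : y ∈ overR) : y ∈ domC :=
  ⟨lt_trans (by norm_num) hy.1, hy.2⟩

theorem rhoL_pos : 0 < rhoL :=
  div_pos (wL_pos ⟨by norm_num, by norm_num⟩) Real.two_pi_pos

theorem rhoR_pos : 0 < rhoR :=
  div_pos (wR_pos ⟨by norm_num, by norm_num⟩) Real.two_pi_pos

theorem isOpen_domCore (lam rho : ℝ) (hlam : 0 < lam) : IsOpen (domCore lam rho) := by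
  have hle : ∀ (x : ℝ) (i : ℤ), ‖(x : AddCircle lam)‖ ^ 2 ≤ (x - lam * i) ^ 2 := by
    intro x i
    rw [AddCircle.norm_eq, sq_abs]
    have h := pow_le_pow_left₀ (abs_nonneg _) (round_le (lam⁻¹ * x) i) 2
    rw [sq_abs, sq_abs] at h
    have h2 := mul_le_mul_of_nonneg_left h (sq_nonneg lam)
    rw [← mul_pow, ← mul_pow, mul_sub, mul_sub, mul_inv_cancel_left₀ hlam.ne'] at h2
    rwa [mul_comm _ lam]
  have e : domCore lam rho = {y : E3 |
      rho ^ 2 < ‖(y 0 : AddCircle lam)‖ ^ 2 + ‖(y 1 : AddCircle lam)‖ ^ 2} := by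
    ext y
    refine ⟨fun h => ?_, fun h i j => lt_of_lt_of_le h (add_le_add (hle _ i) (hle _ j))⟩
    show rho ^ 2 < _
    rw [AddCircle.norm_eq, AddCircle.norm_eq, sq_abs, sq_abs, mul_comm _ lam, mul_comm _ lam]
    exact h _ _
  rw [e]
  have hc : ∀ i : Fin 3, Continuous fun y : E3 => ‖(y i : AddCircle lam)‖ := fun i =>
    continuous_norm.comp ((AddCircle.continuous_mk' lam).comp
      (EuclideanSpace.proj (𝕜 := ℝ) i).continuous)
  exact isOpen_lt continuous_const (((hc 0).pow 2).add ((hc 1).pow 2))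

/-! ### polar coordinates -/

/-- polar coordinates with angle `θ` and fibre coordinate `h` -/
noncomputable def polarMap (w : ℝ → ℝ) (θ h : E3 →L[ℝ] ℝ) (y : E3) : E3 :=
  vec (w (y 0) / (2 * Real.pi) * Real.cos (2 * Real.pi * θ y))
    (w (y 0) / (2 * Real.pi) * Real.sin (2 * Real.pi * θ y)) (h y)

theorem toL_polar : toL = polarMap wL
    (EuclideanSpace.proj (1 : Fin 3) - EuclideanSpace.proj (2 : Fin 3))
    (EuclideanSpace.proj (2 : Fin 3)) := by
  funext y; simp [toL, polarMap]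

theorem toR_polar : toR = polarMap wR (EuclideanSpace.proj (2 : Fin 3))
    (EuclideanSpace.proj (1 : Fin 3)) := by
  funext y; simp [toR, polarMap]

theorem vec_eq_smul (a b c : ℝ) : vec a b c = a • vec 1 0 0 + b • vec 0 1 0 + c • vec 0 0 1 := by
  ext i; fin_cases i <;> simp [vec_coord]

theorem polarMap_contDiffAt {w : ℝ → ℝ} {θ h : E3 →L[ℝ] ℝ} {y : E3}
    (hw : ContDiffAt ℝ ∞ w (y 0)) : ContDiffAt ℝ ∞ (polarMap w θ h) y := by
  unfold polarMap
  simp only [vec_eq_smul (_ * _)]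
  have h0 : ContDiffAt ℝ ∞ (fun z : E3 => w (z 0) / (2 * Real.pi)) y :=
    (hw.comp y radP.contDiff.contDiffAt).div_const _
  have ha : ContDiffAt ℝ ∞ (fun z : E3 => 2 * Real.pi * θ z) y :=
    contDiffAt_const.mul θ.contDiff.contDiffAt
  exact (((h0.mul ha.cos).smul contDiffAt_const).add
    ((h0.mul ha.sin).smul contDiffAt_const)).add (h.contDiff.contDiffAt.smul contDiffAt_const)

theorem polarMap_fderiv {w : ℝ → ℝ} {θ h : E3 →L[ℝ] ℝ} {y : E3} {σ : ℝ}
    (hw : HasDerivAt w σ (y 0)) (a : E3) :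
    fderiv ℝ (polarMap w θ h) y a =
      vec (σ / (2 * Real.pi) * a 0 * Real.cos (2 * Real.pi * θ y)
          - w (y 0) * θ a * Real.sin (2 * Real.pi * θ y))
        (σ / (2 * Real.pi) * a 0 * Real.sin (2 * Real.pi * θ y)
          + w (y 0) * θ a * Real.cos (2 * Real.pi * θ y)) (h a) := by
  unfold polarMap
  simp only [vec_eq_smul (_ * _)]
  have h0 : HasFDerivAt (fun z : E3 => w (z 0) / (2 * Real.pi))
      ((σ / (2 * Real.pi)) • radP) y :=
    HasDerivAt.comp_hasFDerivAt (f := fun z : E3 => z 0) y (hw.div_const _) radP.hasFDerivAt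
  have ha : HasFDerivAt (fun z : E3 => 2 * Real.pi * θ z) ((2 * Real.pi) • θ) y :=
    θ.hasFDerivAt.const_mul _
  rw [((((h0.fun_mul ha.cos).smul_const (vec 1 0 0)).fun_add
    ((h0.fun_mul ha.sin).smul_const (vec 0 1 0))).fun_add
    (h.hasFDerivAt.smul_const (vec 0 0 1))).fderiv]
  ext i
  fin_cases i <;> simp [vec_coord] <;> field_simp <;> ring

theorem polarMap_pullback {w : ℝ → ℝ} {θ h : E3 →L[ℝ] ℝ} {y : E3} {σ c : ℝ}
    (hw : HasDerivAt w σ (y 0)) (hσ : (σ / (2 * Real.pi)) ^ 2 = 1) :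
    (formOf ![![1, 0, 0], ![0, 1, 0], ![0, 0, c]]).bilinearComp
      (fderiv ℝ (polarMap w θ h) y) (fderiv ℝ (polarMap w θ h) y)
      = warpForm θ h (w (y 0) ^ 2) c := by
  ext a b
  rw [ContinuousLinearMap.bilinearComp_apply, formOf_apply, warpForm_apply,
    polarMap_fderiv hw, polarMap_fderiv hw]
  have hcs := Real.sin_sq_add_cos_sq (2 * Real.pi * θ y)
  simp [Fin.sum_univ_three, vec_coord]
  linear_combination a 0 * b 0 * hσ
    + ((σ / (2 * Real.pi)) ^ 2 * (a 0 * b 0) + w (y 0) ^ 2 * (θ a * θ b)) * hcs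

/-- if the pullback of a form is positive definite, the derivative is bijective -/
theorem bijective_of_pullback {G B : Form 3} {D : E3 →L[ℝ] E3} (he : G = B.bilinearComp D D)
    (hp : ∀ a, a ≠ 0 → 0 < G a a) : Function.Bijective D := by
  have hinj : Function.Injective D.toLinearMap := fun a b hab => by
    have hab' : D a = D b := hab
    by_contra hne
    have h2 := hp (a - b) (sub_ne_zero.2 hne)
    rw [he, ContinuousLinearMap.bilinearComp_apply, map_sub D a b, sub_eq_zero.2 hab'] at h2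
    simp at h2
  exact ⟨hinj, LinearMap.surjective_of_injective hinj⟩

theorem hornL_radius {r : ℝ} (hr : r ∈ Ioo (-3 : ℝ) (-1)) :
    wL r / (2 * Real.pi) = rhoL + (-1 - r) := by
  rw [rhoL, wL_flat ⟨hr.1, by linarith [hr.2]⟩ (by linarith [hr.2])]
  field_simp

theorem hornR_radius {r : ℝ} (hr : r ∈ Ioo (3 : ℝ) 4) :
    wR r / (2 * Real.pi) = rhoR + (r - 3) := by
  rw [rhoR, wR_flat ⟨by linarith [hr.1], hr.2⟩ (by linarith [hr.1]),
    wR_flat (r := 3) ⟨by norm_num, by norm_num⟩ (by norm_num)]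
  field_simp
  ring

theorem hornL_hasDeriv {r : ℝ} (hr : r ∈ Ioo (-3 : ℝ) (-1)) :
    HasDerivAt wL (-(2 * Real.pi)) r := by
  refine (wL_hasDeriv ⟨hr.1, by linarith [hr.2]⟩).congr_deriv ?_
  rw [slopeL, chiL, Real.smoothTransition.zero_of_nonpos (by linarith [hr.2])]
  ring

theorem hornR_hasDeriv {r : ℝ} (hr : r ∈ Ioo (3 : ℝ) 4) : HasDerivAt wR (2 * Real.pi) r := by
  refine (wR_hasDeriv ⟨by linarith [hr.1], hr.2⟩).congr_deriv ?_
  rw [slopeR, chiR, Real.smoothTransition.one_of_one_le (by linarith [hr.1])]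
  ring

/-- a point of the annulus avoids the closed discs around the lattice -/
theorem annulus_mem_domCore {lam rho R p q t : ℝ} (hrho : 0 < rho) (h1 : rho < R)
    (h2 : rho + R < lam) (hpq : p ^ 2 + q ^ 2 = R ^ 2) : vec p q t ∈ domCore lam rho := by
  have far : ∀ (x : ℝ) (i : ℤ), x ^ 2 ≤ R ^ 2 → i ≠ 0 → rho ^ 2 < (x - lam * i) ^ 2 := by
    intro x i hx hi
    have hx' : |x| ≤ R := abs_le_of_sq_le_sq hx (by linarith)
    have hli : lam ≤ |lam * i| := by
      rw [abs_mul, abs_of_pos (show 0 < lam by linarith)]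
      refine le_mul_of_one_le_right (by linarith) ?_
      exact_mod_cast Int.one_le_abs hi
    have := abs_sub_abs_le_abs_sub (lam * (i : ℝ)) x
    rw [abs_sub_comm] at this
    exact sq_lt_sq.2 (by rw [abs_of_pos hrho]; linarith)
  intro i j
  simp only [vec_coord, Matrix.cons_val_zero, Matrix.cons_val_one]
  by_cases hi : i = 0
  · by_cases hj : j = 0
    · simp [hi, hj, hpq]; nlinarith
    · have := far q j (by nlinarith) hj
      nlinarith [sq_nonneg (p - lam * i)]
  · have := far p i (by nlinarith) hi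
    nlinarith [sq_nonneg (q - lam * j)]

theorem polar_sq (R φ : ℝ) : (R * Real.cos φ) ^ 2 + (R * Real.sin φ) ^ 2 = R ^ 2 := by
  linear_combination R ^ 2 * Real.sin_sq_add_cos_sq φ

/-- two polar points differ by a period iff same radius and the angle, fibre differ by integers -/
theorem polar_per_iff {lam R R' s s' t t' : ℝ} (hR : 0 < R) (hR' : 0 < R') (h : R + R' < lam) :
    (∃ i j k, vec (R' * Real.cos (2 * Real.pi * s')) (R' * Real.sin (2 * Real.pi * s')) t' =
      vec (R * Real.cos (2 * Real.pi * s)) (R * Real.sin (2 * Real.pi * s)) t + perCore lam i j k) ↔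
    R' = R ∧ ∃ m k : ℤ, s' = s + m ∧ t' = t + k := by
  constructor
  · rintro ⟨i, j, k, e⟩
    have e0 := congrArg (fun z : E3 => z 0) e
    have e1 := congrArg (fun z : E3 => z 1) e
    have e2 := congrArg (fun z : E3 => z 2) e
    simp [perCore, vec_coord] at e0 e1 e2
    have small : ∀ (i : ℤ) (c c' : ℝ), |c| ≤ 1 → |c'| ≤ 1 → R' * c' = R * c + lam * i → i = 0 := by
      intro i c c' hc hc' e
      by_contra hi
      have h1 : (1 : ℝ) ≤ |(i : ℝ)| := by exact_mod_cast Int.one_le_abs hi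
      have h2 : |lam * i| ≤ R' + R := by
        rw [show lam * i = R' * c' - R * c by linarith]
        refine le_trans (abs_sub _ _) ?_
        rw [abs_mul, abs_mul, abs_of_pos hR, abs_of_pos hR']
        nlinarith
      rw [abs_mul, abs_of_pos (show 0 < lam by linarith)] at h2
      nlinarith
    obtain rfl := small i _ _ (Real.abs_cos_le_one _) (Real.abs_cos_le_one _) e0
    obtain rfl := small j _ _ (Real.abs_sin_le_one _) (Real.abs_sin_le_one _) e1
    simp at e0 e1
    have hRR : R' = R := by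
      refine (pow_left_inj₀ hR'.le hR.le two_ne_zero).1 ?_
      rw [← polar_sq R' (2 * Real.pi * s'), e0, e1, polar_sq]
    subst hRR
    have hang := Real.Angle.cos_sin_inj (mul_left_cancel₀ hR'.ne' e0) (mul_left_cancel₀ hR'.ne' e1)
    obtain ⟨m, hm⟩ := Real.Angle.angle_eq_iff_two_pi_dvd_sub.1 hang
    refine ⟨rfl, m, k, ?_, e2⟩
    have := mul_left_cancel₀ Real.two_pi_pos.ne'
      (show (2 * Real.pi) * (s' - s) = (2 * Real.pi) * m by linarith)
    linarith
  · rintro ⟨rfl, m, k, rfl, rfl⟩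
    refine ⟨0, 0, k, ?_⟩
    have e : 2 * Real.pi * (s + m) = 2 * Real.pi * s + m * (2 * Real.pi) := by ring
    ext i
    fin_cases i <;> simp [perCore, vec_coord, e, Real.cos_add_int_mul_two_pi,
      Real.sin_add_int_mul_two_pi]

theorem exists_polar_angle (p q : ℝ) : ∃ s, Real.sqrt (p ^ 2 + q ^ 2) * Real.cos (2 * Real.pi * s) = p
    ∧ Real.sqrt (p ^ 2 + q ^ 2) * Real.sin (2 * Real.pi * s) = q := by
  refine ⟨Complex.arg ⟨p, q⟩ / (2 * Real.pi), ?_⟩
  have e : ‖(⟨p, q⟩ : ℂ)‖ = Real.sqrt (p ^ 2 + q ^ 2) := Complex.norm_eq_sqrt_sq_add_sq _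
  rw [mul_div_cancel₀ _ Real.two_pi_pos.ne', ← e]
  exact ⟨Complex.norm_mul_cos_arg _, Complex.norm_mul_sin_arg _⟩

/-! ### the two maps -/

theorem toL_mem {y : E3} (hy : y ∈ overL) : toL y ∈ domL := by
  refine annulus_mem_domCore rhoL_pos ?_ ?_ (polar_sq _ _) <;> rw [hornL_radius hy]
  · linarith [hy.2]
  · rw [lamL]; linarith [hy.1, rhoL_pos]

theorem toR_mem {y : E3} (hy : y ∈ overR) : toR y ∈ domR := by
  refine annulus_mem_domCore rhoR_pos ?_ ?_ (polar_sq _ _) <;> rw [hornR_radius hy]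
  · linarith [hy.1]
  · rw [lamR]; linarith [hy.2, rhoR_pos]

theorem toL_contDiffAt {y : E3} (hy : y ∈ domC) : ContDiffAt ℝ ∞ toL y :=
  toL_polar ▸ polarMap_contDiffAt (wL_smooth.contDiffAt (isOpen_Ioo.mem_nhds hy))

theorem toR_contDiffAt {y : E3} (hy : y ∈ domC) : ContDiffAt ℝ ∞ toR y :=
  toR_polar ▸ polarMap_contDiffAt (wR_smooth.contDiffAt (isOpen_Ioo.mem_nhds hy))

theorem gC_eq_pullback_L {y : E3} (hy : y ∈ overL) :
    gC y = (gL (toL y)).bilinearComp (fderiv ℝ toL y) (fderiv ℝ toL y) := by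
  rw [gC_eq_left ⟨hy.1, lt_trans hy.2 (by norm_num)⟩, toL_polar]
  refine (polarMap_pullback (hornL_hasDeriv hy) ?_).symm
  field_simp

theorem gC_eq_pullback_R {y : E3} (hy : y ∈ overR) :
    gC y = (gR (toR y)).bilinearComp (fderiv ℝ toR y) (fderiv ℝ toR y) := by
  rw [gC_eq_right ⟨lt_trans (by norm_num) hy.1, hy.2⟩, toR_polar]
  have hA : 0 < qA 1 := qA_pos ⟨by norm_num, by norm_num⟩
  have e : fibR ^ 2 = 1 / qA 1 := by rw [fibR, div_pow, one_pow, Real.sq_sqrt hA.le]
  simp only [gR, e]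
  refine (polarMap_pullback (hornR_hasDeriv hy) ?_).symm
  field_simp

theorem toL_bijective {y : E3} (hy : y ∈ overL) :
    Function.Bijective (fderiv ℝ toL y) :=
  bijective_of_pullback (gC_eq_pullback_L hy) (gC_pos (overL_domC hy))

theorem toR_bijective {y : E3} (hy : y ∈ overR) :
    Function.Bijective (fderiv ℝ toR y) :=
  bijective_of_pullback (gC_eq_pullback_R hy) (gC_pos (overR_domC hy))

theorem toL_eq_iff {y y' : E3} (hy : y ∈ overL) (hy' : y' ∈ overL) :
    (∃ i j k, toL y' = toL y + perCore lamL i j k) ↔ ∃ i j, y' = y + perC i j := by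
  have hp := rhoL_pos
  rw [toL, toL, hornL_radius hy, hornL_radius hy']
  rw [polar_per_iff (by linarith [hy.2]) (by linarith [hy'.2])
    (by rw [lamL]; linarith [hy.1, hy'.1])]
  constructor
  · rintro ⟨h0, m, k, hm, hk⟩
    refine ⟨m + k, k, ?_⟩
    ext i
    fin_cases i <;> simp [perC, vec_coord] <;> linarith
  · rintro ⟨i, j, rfl⟩
    refine ⟨by simp [perC, vec_coord], i - j, j, ?_, ?_⟩ <;> simp [perC, vec_coord]
    ring

theorem toR_eq_iff {y y' : E3} (hy : y ∈ overR) (hy' : y' ∈ overR) :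
    (∃ i j k, toR y' = toR y + perCore lamR i j k) ↔ ∃ i j, y' = y + perC i j := by
  have hp := rhoR_pos
  rw [toR, toR, hornR_radius hy, hornR_radius hy']
  rw [polar_per_iff (by linarith [hy.1]) (by linarith [hy'.1])
    (by rw [lamR]; linarith [hy.2, hy'.2])]
  constructor
  · rintro ⟨h0, m, k, hm, hk⟩
    refine ⟨k, m, ?_⟩
    ext i
    fin_cases i <;> simp [perC, vec_coord] <;> linarith
  · rintro ⟨i, j, rfl⟩
    refine ⟨by simp [perC, vec_coord], j, i, ?_, ?_⟩ <;> simp [perC, vec_coord]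

/-- the image of `toL` modulo periods is an annulus times a line -/
theorem toL_range {z : E3} :
    (∃ y ∈ overL, ∃ i j k, z = toL y + perCore lamL i j k) ↔
      ∃ i j : ℤ, (z 0 - lamL * i) ^ 2 + (z 1 - lamL * j) ^ 2 ∈
        Ioo (rhoL ^ 2) ((rhoL + 2) ^ 2) := by
  have hp := rhoL_pos
  constructor
  · rintro ⟨y, hy, i, j, k, rfl⟩
    refine ⟨i, j, ?_⟩
    simp [toL, perCore, vec_coord, polar_sq, hornL_radius hy]
    exact ⟨pow_lt_pow_left₀ (by linarith [hy.2]) hp.le two_ne_zero,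
      pow_lt_pow_left₀ (by linarith [hy.1]) (by linarith [hy.2]) two_ne_zero⟩
  · rintro ⟨i, j, h1, h2⟩
    set p := z 0 - lamL * i
    set q := z 1 - lamL * j
    obtain ⟨s, hs0, hs1⟩ := exists_polar_angle p q
    set R := Real.sqrt (p ^ 2 + q ^ 2)
    have hR1 : rhoL < R := Real.lt_sqrt_of_sq_lt h1
    have hR2 : R < rhoL + 2 := (Real.sqrt_lt' (by linarith)).2 h2
    have hy : vec (-1 - (R - rhoL)) (z 2 + s) (z 2) ∈ overL := by
      simp only [overL, mem_ofPred_eq, vec_coord, Matrix.cons_val_zero, mem_Ioo]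
      constructor <;> linarith
    refine ⟨_, hy, i, j, 0, ?_⟩
    have hrad := hornL_radius hy
    simp only [vec_coord, Matrix.cons_val_zero, sub_sub_cancel, add_sub_cancel] at hrad
    ext n
    fin_cases n <;> simp [toL, perCore, vec_coord, hrad, hs0, hs1, p, q]

theorem toR_range {z : E3} :
    (∃ y ∈ overR, ∃ i j k, z = toR y + perCore lamR i j k) ↔
      ∃ i j : ℤ, (z 0 - lamR * i) ^ 2 + (z 1 - lamR * j) ^ 2 ∈
        Ioo (rhoR ^ 2) ((rhoR + 1) ^ 2) := by
  have hp := rhoR_pos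
  constructor
  · rintro ⟨y, hy, i, j, k, rfl⟩
    refine ⟨i, j, ?_⟩
    simp [toR, perCore, vec_coord, polar_sq, hornR_radius hy]
    exact ⟨pow_lt_pow_left₀ (by linarith [hy.1]) hp.le two_ne_zero,
      pow_lt_pow_left₀ (by linarith [hy.2]) (by linarith [hy.1]) two_ne_zero⟩
  · rintro ⟨i, j, h1, h2⟩
    set p := z 0 - lamR * i
    set q := z 1 - lamR * j
    obtain ⟨s, hs0, hs1⟩ := exists_polar_angle p q
    set R := Real.sqrt (p ^ 2 + q ^ 2)
    have hR1 : rhoR < R := Real.lt_sqrt_of_sq_lt h1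
    have hR2 : R < rhoR + 1 := (Real.sqrt_lt' (by linarith)).2 h2
    have hy : vec (3 + (R - rhoR)) (z 2) s ∈ overR := by
      simp only [overR, mem_ofPred_eq, vec_coord, Matrix.cons_val_zero, mem_Ioo]
      constructor <;> linarith
    refine ⟨_, hy, i, j, 0, ?_⟩
    have hrad := hornR_radius hy
    simp only [vec_coord, Matrix.cons_val_zero, add_sub_cancel_left, add_sub_cancel] at hrad
    ext n
    fin_cases n <;> simp [toR, perCore, vec_coord, hrad, hs0, hs1, p, q]

end Vale.Agent.P255
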